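import Vale.Agent.P363.Two.Harnack.Kernels

/-!
Two electrons, Harnack block: the barrier which compares the mass of a solution on a shell with the
mass on the core.
-/

noncomputable section

open MeasureTheory Set Real Function
open scoped ENNReal

namespace Vale.Agent.P363.Two

/-- The squared distance of the electrons, regularised. -/
def gap (ε : ℝ) (Y : C2) : ℝ := ε ^ 2 + ‖Y 0 - Y 1‖ ^ 2

/-- Half the derivative of the squared electron distance along an axis. -/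
def gapDir (i : Fin 2) (k : Fin 3) (Y : C2) : ℝ := if i = 0 then Y 0 k - Y 1 k else Y 1 k - Y 0 k

/-- The cut-off profile. -/
def cut (α σ : ℝ) : ℝ := expNegInvGlue ((1 - σ) / α)

/-- Its derivative. -/
def cut1 (α σ : ℝ) : ℝ := -(α / (1 - σ) ^ 2) * cut α σ

/-- Its second derivative. -/
def cut2 (α σ : ℝ) : ℝ := (α ^ 2 / (1 - σ) ^ 4 - 2 * α / (1 - σ) ^ 3) * cut α σ

/-- The barrier around `X₀` at radius `r`. -/
def bar (α ε r : ℝ) (X₀ Y : C2) : ℝ :=
  exp (√(gap ε Y) / 2 - √(gap ε X₀) / 2) * cut α (nsq (Y - X₀) / r ^ 2)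

lemma cut_nonneg (α σ : ℝ) : 0 ≤ cut α σ := expNegInvGlue.nonneg _

lemma cut_zero {α σ : ℝ} (hα : 0 ≤ α) (hσ : 1 ≤ σ) : cut α σ = 0 :=
  expNegInvGlue.zero_of_nonpos (div_nonpos_of_nonpos_of_nonneg (by linarith) hα)

lemma cut_eq {α σ : ℝ} (hα : 0 < α) (hσ : σ < 1) : cut α σ = exp (-(α / (1 - σ))) := by
  rw [cut, expNegInvGlue, if_neg (not_le.2 (by have := sub_pos.2 hσ; positivity)), inv_div]

lemma cut_le_one {α : ℝ} (hα : 0 < α) (σ : ℝ) : cut α σ ≤ 1 := by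
  rcases lt_or_ge σ 1 with h | h
  · rw [cut_eq hα h]
    exact exp_le_one_iff.2 (neg_nonpos.2 (div_nonneg hα.le (by linarith)))
  · rw [cut_zero hα.le h]; exact zero_le_one

open Polynomial in
lemma hasDerivAt_glue (x : ℝ) :
    HasDerivAt expNegInvGlue (x⁻¹ ^ 2 * expNegInvGlue x) x := by
  simpa using expNegInvGlue.hasDerivAt_polynomial_eval_inv_mul 1 x

open Polynomial in
lemma hasDerivAt_glue' (x : ℝ) : HasDerivAt (fun x => x⁻¹ ^ 2 * expNegInvGlue x)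
    ((x⁻¹ ^ 4 - 2 * x⁻¹ ^ 3) * expNegInvGlue x) x := by
  have h := expNegInvGlue.hasDerivAt_polynomial_eval_inv_mul (X ^ 2) x
  simp only [eval_pow, eval_X, eval_mul, eval_sub, derivative_X_pow, eval_C] at h
  refine h.congr_deriv ?_
  simp only [Nat.reduceSub, pow_one, Nat.cast_ofNat]
  ring

lemma hasDerivAt_cut {α : ℝ} (hα : α ≠ 0) (σ : ℝ) : HasDerivAt (cut α) (cut1 α σ) σ := by
  refine ((hasDerivAt_glue _).comp σ (((hasDerivAt_id' σ).const_sub 1).div_const α)).congr_deriv ?_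
  simp only [cut1, cut, inv_div]
  field_simp

lemma hasDerivAt_cut1 {α : ℝ} (hα : α ≠ 0) (σ : ℝ) : HasDerivAt (cut1 α) (cut2 α σ) σ := by
  have e : cut1 α = fun σ => -(1 / α) * (fun x => x⁻¹ ^ 2 * expNegInvGlue x) ((1 - σ) / α) := by
    funext σ
    simp only [cut1, cut, inv_div]
    field_simp
  rw [e]
  refine (((hasDerivAt_glue' _).comp σ (((hasDerivAt_id' σ).const_sub 1).div_const α)).const_mul
    _).congr_deriv ?_
  simp only [cut2, cut, inv_div]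
  field_simp

lemma gap_pos {ε : ℝ} (hε : 0 < ε) (Y : C2) : 0 < gap ε Y := by unfold gap; positivity

lemma contDiff_gap {n : ℕ∞} (ε : ℝ) : ContDiff ℝ n (gap ε) :=
  contDiff_const.add (((contDiff_apply ℝ R3 (0 : Fin 2)).sub
    (contDiff_apply ℝ R3 (1 : Fin 2))).norm_sq ℝ)

lemma contDiff_bar {n : ℕ∞} (α : ℝ) {ε : ℝ} (hε : 0 < ε) (r : ℝ) (X₀ : C2) :
    ContDiff ℝ n (bar α ε r X₀) := by
  have hg : ContDiff ℝ n fun Y => √(gap ε Y) :=
    (contDiff_gap ε).sqrt fun Y => (gap_pos hε Y).ne'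
  have hn : ContDiff ℝ n fun Y => nsq (Y - X₀) / r ^ 2 :=
    (contDiff_nsq.comp (contDiff_id.sub contDiff_const)).div_const _
  exact ((hg.div_const 2).sub contDiff_const).exp.mul
    (expNegInvGlue.contDiff.comp ((contDiff_const.sub hn).div_const α))

lemma bar_zero {α ε r : ℝ} (hα : 0 ≤ α) (hr : 0 < r) {X₀ Y : C2} (h : r ^ 2 ≤ nsq (Y - X₀)) :
    bar α ε r X₀ Y = 0 := by
  rw [bar, cut_zero hα ((one_le_div (by positivity)).2 h), mul_zero]

lemma isTest_bar {α ε r : ℝ} (hα : 0 ≤ α) (hε : 0 < ε) (hr : 0 < r) (X₀ : C2) :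
    IsTest (bar α ε r X₀) := by
  refine ⟨contDiff_bar α hε r X₀, ?_⟩
  refine HasCompactSupport.intro (isCompact_closedBall X₀ r) fun Y hY => bar_zero hα hr ?_
  rw [Metric.mem_closedBall, dist_eq_norm, not_le] at hY
  exact (pow_le_pow_left₀ hr.le hY.le 2).trans (norm_sq_le_nsq _)

lemma pd_eq {f : C2 → ℝ} {i : Fin 2} {k : Fin 3} {X : C2} {v : ℝ} (hf : DifferentiableAt ℝ f X)
    (h : HasDerivAt (fun τ : ℝ => f (X + τ • dir i k)) v 0) : pd i k f X = v := by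
  have h1 : HasDerivAt (fun τ : ℝ => X + τ • dir i k) (dir i k) 0 := by
    simpa using ((hasDerivAt_id (0 : ℝ)).smul_const (dir i k)).const_add X
  exact (hf.hasFDerivAt.comp_hasDerivAt_of_eq 0 h1 (by simp)).unique h

lemma nsq_line (i : Fin 2) (k : Fin 3) (X : C2) (τ : ℝ) :
    nsq (X + τ • dir i k) = nsq X + 2 * τ * X i k + τ ^ 2 := by
  fin_cases i <;>
    simp [nsq, dir, norm_add_sq_real, norm_smul, inner_smul_right,
      EuclideanSpace.inner_single_right] <;> ring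

lemma gap_line (ε : ℝ) (i : Fin 2) (k : Fin 3) (Y : C2) (τ : ℝ) :
    gap ε (Y + τ • dir i k) = gap ε Y + 2 * τ * gapDir i k Y + τ ^ 2 := by
  fin_cases i
  · simp [gap, gapDir, dir, add_sub_right_comm, norm_add_sq_real, norm_smul, inner_smul_right,
      EuclideanSpace.inner_single_right]
    ring
  · simp [gap, gapDir, dir, sub_add_eq_sub_sub, norm_sub_sq_real, norm_smul, inner_smul_right,
      EuclideanSpace.inner_single_right]
    ring

lemma gapDir_line (i : Fin 2) (k : Fin 3) (Y : C2) (τ : ℝ) :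
    gapDir i k (Y + τ • dir i k) = gapDir i k Y + τ := by
  fin_cases i <;> simp [gapDir, dir] <;> ring

lemma pd_bar {α ε r : ℝ} (hα : α ≠ 0) (hε : 0 < ε) (X₀ : C2) (i : Fin 2) (k : Fin 3) (Y : C2) :
    pd i k (bar α ε r X₀) Y = exp (√(gap ε Y) / 2 - √(gap ε X₀) / 2) *
      (gapDir i k Y / (2 * √(gap ε Y)) * cut α (nsq (Y - X₀) / r ^ 2)
        + cut1 α (nsq (Y - X₀) / r ^ 2) * (2 * (Y - X₀) i k / r ^ 2)) := by
  refine pd_eq ((contDiff_bar (n := 1) α hε r X₀).differentiable one_ne_zero Y) ?_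
  have hq := gap_pos hε Y
  have e : ∀ τ : ℝ, bar α ε r X₀ (Y + τ • dir i k)
      = exp (√(gap ε Y + 2 * τ * gapDir i k Y + τ ^ 2) / 2 - √(gap ε X₀) / 2) *
        cut α ((nsq (Y - X₀) + 2 * τ * (Y - X₀) i k + τ ^ 2) / r ^ 2) := fun τ => by
    rw [bar, gap_line, show Y + τ • dir i k - X₀ = Y - X₀ + τ • dir i k by abel, nsq_line]
  have h1 : HasDerivAt (fun τ : ℝ => gap ε Y + 2 * τ * gapDir i k Y + τ ^ 2)
      (2 * gapDir i k Y) 0 :=
    ((((hasDerivAt_id' (0 : ℝ)).const_mul 2).mul_const (gapDir i k Y)).const_add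
      (gap ε Y)).fun_add (hasDerivAt_pow 2 (0 : ℝ)) |>.congr_deriv (by simp)
  have h2 : HasDerivAt (fun τ : ℝ => (nsq (Y - X₀) + 2 * τ * (Y - X₀) i k + τ ^ 2) / r ^ 2)
      (2 * (Y - X₀) i k / r ^ 2) 0 :=
    (((((hasDerivAt_id' (0 : ℝ)).const_mul 2).mul_const ((Y - X₀) i k)).const_add
      (nsq (Y - X₀))).fun_add (hasDerivAt_pow 2 (0 : ℝ))).div_const _ |>.congr_deriv (by simp)
  refine ((((h1.sqrt (by simpa using hq.ne')).div_const 2).sub_const _).exp.fun_mul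
    ((hasDerivAt_cut hα _).comp (0 : ℝ) h2)).congr_of_eventuallyEq
    (Filter.Eventually.of_forall e) |>.congr_deriv ?_
  simp only [comp_apply, mul_zero, zero_mul, add_zero, ne_eq, OfNat.ofNat_ne_zero,
    not_false_eq_true, zero_pow]
  field_simp

lemma pd_pd_bar {α ε r : ℝ} (hα : α ≠ 0) (hε : 0 < ε) (hr : r ≠ 0) (X₀ : C2) (i : Fin 2) (k : Fin 3) (Y : C2) :
    pd i k (pd i k (bar α ε r X₀)) Y = exp (√(gap ε Y) / 2 - √(gap ε X₀) / 2) *
      ((gapDir i k Y ^ 2 / (4 * gap ε Y) + 1 / (2 * √(gap ε Y))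
          - gapDir i k Y ^ 2 / (2 * (gap ε Y * √(gap ε Y)))) * cut α (nsq (Y - X₀) / r ^ 2)
        + cut1 α (nsq (Y - X₀) / r ^ 2) *
          (gapDir i k Y / √(gap ε Y) * (2 * (Y - X₀) i k / r ^ 2) + 2 / r ^ 2)
        + cut2 α (nsq (Y - X₀) / r ^ 2) * (2 * (Y - X₀) i k / r ^ 2) ^ 2) := by
  have hd : DifferentiableAt ℝ (pd i k (bar α ε r X₀)) Y :=
    (((contDiff_bar (n := 2) α hε r X₀).fderiv_right (m := 1) le_rfl).differentiable
      one_ne_zero Y).clm_apply (differentiableAt_const _)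
  refine pd_eq hd ?_
  set q := gap ε Y with hqdef
  set a := gapDir i k Y with ha
  set n := nsq (Y - X₀) with hn
  set z := (Y - X₀) i k with hz
  have hq : 0 < q := gap_pos hε Y
  have e : ∀ τ : ℝ, pd i k (bar α ε r X₀) (Y + τ • dir i k)
      = exp (√(q + 2 * τ * a + τ ^ 2) / 2 - √(gap ε X₀) / 2) *
        ((a + τ) / (2 * √(q + 2 * τ * a + τ ^ 2)) * cut α ((n + 2 * τ * z + τ ^ 2) / r ^ 2)
          + cut1 α ((n + 2 * τ * z + τ ^ 2) / r ^ 2) * (2 * (z + τ) / r ^ 2)) := fun τ => by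
    rw [pd_bar hα hε, gap_line, gapDir_line,
      show Y + τ • dir i k - X₀ = Y - X₀ + τ • dir i k by abel, nsq_line]
    simp [hqdef, ha, hn, hz, dir]
  have h1 : HasDerivAt (fun τ : ℝ => q + 2 * τ * a + τ ^ 2) (2 * a) 0 :=
    ((((hasDerivAt_id' (0 : ℝ)).const_mul 2).mul_const a).const_add q).fun_add
      (hasDerivAt_pow 2 (0 : ℝ)) |>.congr_deriv (by simp)
  have h2 : HasDerivAt (fun τ : ℝ => (n + 2 * τ * z + τ ^ 2) / r ^ 2) (2 * z / r ^ 2) 0 :=
    (((((hasDerivAt_id' (0 : ℝ)).const_mul 2).mul_const z).const_add n).fun_add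
      (hasDerivAt_pow 2 (0 : ℝ))).div_const _ |>.congr_deriv (by simp)
  have hs := h1.sqrt (by simpa using hq.ne')
  have h4 : HasDerivAt (fun τ : ℝ => 2 * (z + τ) / r ^ 2) (2 / r ^ 2) 0 :=
    ((((hasDerivAt_id' (0 : ℝ)).const_add z).const_mul 2).div_const _).congr_deriv (by simp)
  refine ((((hs.div_const 2).sub_const _).exp.fun_mul
    (((((hasDerivAt_id' (0 : ℝ)).const_add a).fun_div (hs.const_mul 2)
      (by have := sqrt_pos.2 hq; simp [this.ne'])).fun_mul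
      ((hasDerivAt_cut hα _).comp (0 : ℝ) h2)).fun_add
      (((hasDerivAt_cut1 hα _).comp (0 : ℝ) h2).fun_mul h4))).congr_of_eventuallyEq
    (Filter.Eventually.of_forall e)).congr_deriv ?_
  have hsq : q = √q * √q := (mul_self_sqrt hq.le).symm
  have hs0 := (sqrt_pos.2 hq).ne'
  simp only [comp_apply, mul_zero, zero_mul, add_zero, ne_eq, OfNat.ofNat_ne_zero,
    not_false_eq_true, zero_pow]
  generalize √q = s at *
  rw [hsq]
  field_simp
  ring

lemma sum_gapDir_sq (Y : C2) : ∑ i, ∑ k, gapDir i k Y ^ 2 = 2 * ‖Y 0 - Y 1‖ ^ 2 := by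
  simp [EuclideanSpace.norm_sq_eq, Fin.sum_univ_three, gapDir]
  ring

lemma sum_gapDir_mul (Y Z : C2) :
    |∑ i, ∑ k, gapDir i k Y * Z i k| ≤ 2 * (‖Y 0 - Y 1‖ * √(nsq Z)) := by
  have e : ∑ i, ∑ k, gapDir i k Y * Z i k
      = inner ℝ (Y 0 - Y 1) (Z 0 - Z 1) := by
    simp [PiLp.inner_apply, Fin.sum_univ_three, gapDir]
    ring
  rw [e]
  refine (abs_real_inner_le_norm _ _).trans ?_
  rw [mul_left_comm]
  refine mul_le_mul_of_nonneg_left ((norm_sub_le _ _).trans ?_) (norm_nonneg _)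
  have h0 : ‖Z 0‖ ≤ √(nsq Z) := le_sqrt_of_sq_le (by simp [nsq])
  have h1 : ‖Z 1‖ ≤ √(nsq Z) := le_sqrt_of_sq_le (by simp [nsq])
  linarith

lemma sum_sq (Z : C2) : ∑ i, ∑ k, Z i k ^ 2 = nsq Z := by
  simp [nsq, EuclideanSpace.norm_sq_eq, Fin.sum_univ_three]

variable {M : ℕ} {Z : Fin M → ℕ} {R : Fin M → R3} {e : ℝ}

lemma pot2_le (X : C2) : pot2 Z R X ≤ 1 / ‖X 0 - X 1‖ := by
  have h : ∀ i, 0 ≤ ∑ j, (Z j : ℝ) / ‖X i - R j‖ := fun i =>
    Finset.sum_nonneg fun j _ => by positivity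
  unfold pot2
  linarith [h 0, h 1]

/-- The sign of the operator on the barrier. -/
lemma bar_op {α ε r : ℝ} (hα : α = 25 + 2 * |e|) (hε : 0 < ε) (hr : 0 < r) (hr1 : r ≤ 1)
    (X₀ Y : C2) :
    exp (√(gap ε Y) / 2 - √(gap ε X₀) / 2) / r ^ 2 *
      (4 * (nsq (Y - X₀) / r ^ 2) * cut2 α (nsq (Y - X₀) / r ^ 2)
        + 16 * cut1 α (nsq (Y - X₀) / r ^ 2) - 2 * |e| * cut α (nsq (Y - X₀) / r ^ 2))
      - 2 * bar α ε r X₀ Y * (1 / ‖Y 0 - Y 1‖ - 1 / √(gap ε Y))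
    ≤ lap (bar α ε r X₀) Y - 2 * (pot2 Z R Y - e) * bar α ε r X₀ Y := by
  have hα0 : α ≠ 0 := by rw [hα]; positivity
  have hαp : 0 ≤ α := by rw [hα]; positivity
  set q := gap ε Y with hqd
  set σ := nsq (Y - X₀) / r ^ 2 with hσ
  set E := exp (√q / 2 - √(gap ε X₀) / 2) with hE
  set s := √q with hs
  have hq : 0 < q := gap_pos hε Y
  have hs0 : 0 < s := sqrt_pos.2 hq
  have hss : s * s = q := mul_self_sqrt hq.le
  set d := ‖Y 0 - Y 1‖ with hd
  have hdq : d ^ 2 ≤ q := by simp only [hqd, gap, hd]; linarith [sq_nonneg ε]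
  have hlap : lap (bar α ε r X₀) Y = E * ((d ^ 2 / (2 * q) + 3 / s - d ^ 2 / (q * s)) * cut α σ
      + cut1 α σ * ((∑ i, ∑ k, gapDir i k Y * (Y - X₀) i k) * (2 / (s * r ^ 2)) + 12 / r ^ 2)
      + cut2 α σ * (4 * σ / r ^ 2)) := by
    simp only [lap, pd_pd_bar hα0 hε hr.ne', ← hσ, ← hqd, ← hs, ← hE, ← Finset.mul_sum]
    simp only [Finset.sum_add_distrib, Finset.sum_sub_distrib, ← Finset.sum_mul, ← Finset.mul_sum,
      mul_pow, div_pow]
    have t1 : ∑ i, ∑ k, gapDir i k Y ^ 2 / (4 * q) = d ^ 2 / (2 * q) := by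
      simp only [← Finset.sum_div, sum_gapDir_sq, ← hd]; ring
    have t2 : ∑ i, ∑ k, gapDir i k Y ^ 2 / (2 * (q * s)) = d ^ 2 / (q * s) := by
      simp only [← Finset.sum_div, sum_gapDir_sq, ← hd]; ring
    have t3 : ∀ c : ℝ, ∑ _i : Fin 2, ∑ _k : Fin 3, c = 6 * c := fun c => by simp; ring
    have t4 : ∑ i, ∑ k, gapDir i k Y / s * (2 * (Y - X₀) i k / r ^ 2)
        = (∑ i, ∑ k, gapDir i k Y * (Y - X₀) i k) * (2 / (s * r ^ 2)) := by
      simp only [Finset.sum_mul]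
      exact Finset.sum_congr rfl fun i _ => Finset.sum_congr rfl fun k _ => by ring
    have t5 : ∑ i, ∑ k, 2 ^ 2 * (Y - X₀) i k ^ 2 / (r ^ 2) ^ 2 = 4 * σ / r ^ 2 := by
      simp only [← Finset.sum_div, ← Finset.mul_sum, sum_sq, hσ]; ring
    rw [t1, t2, t3, t3, t4, t5]
    ring
  have hE0 : 0 < E := exp_pos _
  have hη : bar α ε r X₀ Y = E * cut α σ := rfl
  have hW : (pot2 Z R Y - e) * (E * cut α σ) ≤ (1 / d + |e|) * (E * cut α σ) :=
    mul_le_mul_of_nonneg_right (by linarith [pot2_le (Z := Z) (R := R) Y, neg_abs_le e])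
      (mul_nonneg hE0.le (cut_nonneg _ _))
  have hc1 : cut1 α σ ≤ 0 := by
    rw [cut1, neg_mul, neg_nonpos]
    exact mul_nonneg (by positivity) (cut_nonneg _ _)
  have hcross : cut1 α σ * (4 / r ^ 2)
      ≤ cut1 α σ * ((∑ i, ∑ k, gapDir i k Y * (Y - X₀) i k) * (2 / (s * r ^ 2))) := by
    rcases lt_or_ge σ 1 with h | h
    · refine mul_le_mul_of_nonpos_left ?_ hc1
      have hn : √(nsq (Y - X₀)) ≤ 1 := by
        rw [Real.sqrt_le_one]
        calc nsq (Y - X₀) ≤ r ^ 2 := ((div_lt_one (by positivity)).1 h).le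
          _ ≤ 1 := by nlinarith
      have h2 : ∑ i, ∑ k, gapDir i k Y * (Y - X₀) i k ≤ 2 * s := by
        refine (le_abs_self _).trans ((sum_gapDir_mul Y _).trans ?_)
        refine mul_le_mul_of_nonneg_left ?_ two_pos.le
        calc d * √(nsq (Y - X₀)) ≤ d * 1 := mul_le_mul_of_nonneg_left hn (norm_nonneg _)
          _ ≤ s := by rw [mul_one, hs]; exact le_sqrt_of_sq_le hdq
      calc (∑ i, ∑ k, gapDir i k Y * (Y - X₀) i k) * (2 / (s * r ^ 2))
          ≤ 2 * s * (2 / (s * r ^ 2)) := mul_le_mul_of_nonneg_right h2 (by positivity)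
        _ = 4 / r ^ 2 := by field_simp; ring
    · simp [cut1, cut_zero hαp h]
  have h2s : 2 / s ≤ d ^ 2 / (2 * q) + 3 / s - d ^ 2 / (q * s) := by
    have h1 : d ^ 2 / (q * s) ≤ 1 / s := by
      rw [div_le_div_iff₀ (by positivity) hs0]
      nlinarith
    have h2 : 0 ≤ d ^ 2 / (2 * q) := by positivity
    have h3 : 3 / s = 2 / s + 1 / s := by ring
    linarith
  have hr2 : (1 : ℝ) ≤ 1 / r ^ 2 := by rw [le_div_iff₀ (by positivity)]; nlinarith
  rw [hlap, hη]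
  have k1 := mul_le_mul_of_nonneg_left h2s (mul_nonneg hE0.le (cut_nonneg α σ))
  have k2 := mul_le_mul_of_nonneg_left hcross hE0.le
  have k3 : 2 * |e| * (E * cut α σ) * 1 ≤ 2 * |e| * (E * cut α σ) * (1 / r ^ 2) :=
    mul_le_mul_of_nonneg_left hr2
      (mul_nonneg (by positivity) (mul_nonneg hE0.le (cut_nonneg _ _)))
  simp only [div_eq_mul_inv, one_mul] at *
  linarith

/-- The profile inequality. -/
lemma profile_bound {α : ℝ} (hα : α = 25 + 2 * |e|) {σ : ℝ} (hσ : 0 ≤ σ) :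
    (if σ < 1 / 4 then -(64 * α + 2 * |e|) else if σ < 3 / 4 then 25 * exp (-(4 * α)) else 0)
      ≤ 4 * σ * cut2 α σ + 16 * cut1 α σ - 2 * |e| * cut α σ := by
  have he := abs_nonneg e
  have hα0 : 0 < α := by linarith
  rcases lt_or_ge σ 1 with h1 | h1
  swap
  · rw [if_neg (by linarith), if_neg (by linarith)]
    simp [cut1, cut2, cut_zero hα0.le h1]
  set τ := 1 - σ with hτ
  have hτ0 : 0 < τ := by linarith
  have hc0 : 0 ≤ cut α σ := cut_nonneg _ _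
  set b := 4 * σ * (α ^ 2 / τ ^ 4 - 2 * α / τ ^ 3) - 16 * (α / τ ^ 2) - 2 * |e| with hb
  have hexpr : 4 * σ * cut2 α σ + 16 * cut1 α σ - 2 * |e| * cut α σ = b * cut α σ := by
    simp only [cut1, cut2, hb, ← hτ]; ring
  rw [hexpr]
  by_cases h4 : σ < 1 / 4
  · rw [if_pos h4]
    have h34 : 3 / 4 ≤ τ := by linarith
    have e1 : 8 * σ * α / τ ^ 3 ≤ 8 * α := by
      rw [div_le_iff₀ (by positivity)]
      nlinarith [pow_le_pow_left₀ (by norm_num) h34 3]
    have e2 : 16 * (α / τ ^ 2) ≤ 32 * α := by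
      have : α / τ ^ 2 ≤ 2 * α := by
        rw [div_le_iff₀ (by positivity)]
        nlinarith [pow_le_pow_left₀ (by norm_num) h34 2]
      linarith
    have e3 : 0 ≤ 4 * σ * (α ^ 2 / τ ^ 4) := by positivity
    have e4 : 4 * σ * (2 * α / τ ^ 3) = 8 * σ * α / τ ^ 3 := by ring
    have hb1 : -(64 * α + 2 * |e|) ≤ b := by simp only [hb]; linarith
    calc -(64 * α + 2 * |e|) = -(64 * α + 2 * |e|) * 1 := (mul_one _).symm
      _ ≤ -(64 * α + 2 * |e|) * cut α σ :=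
        mul_le_mul_of_nonpos_left (cut_le_one hα0 σ) (by linarith)
      _ ≤ b * cut α σ := mul_le_mul_of_nonneg_right hb1 hc0
  · rw [if_neg h4]
    push Not at h4
    have hτ1 : τ ≤ 3 / 4 := by linarith
    have hb25 : 25 ≤ b := by
      have p2 : τ ^ 2 ≤ 1 := pow_le_one₀ hτ0.le (by linarith)
      have p4 : τ ^ 4 ≤ 1 := pow_le_one₀ hτ0.le (by linarith)
      have num : 25 * τ ^ 4 ≤ 4 * σ * (α ^ 2 - 2 * α * τ) - 16 * α * τ ^ 2 - 2 * |e| * τ ^ 4 := by
        have i1 : (α ^ 2 - 2 * α * τ) ≤ 4 * σ * (α ^ 2 - 2 * α * τ) :=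
          le_mul_of_one_le_left (by nlinarith) (by linarith)
        have i2 : 2 * α * τ ≤ 2 * α * 1 := mul_le_mul_of_nonneg_left (by linarith) (by positivity)
        have i3 : 16 * α * τ ^ 2 ≤ 16 * α * 1 := mul_le_mul_of_nonneg_left p2 (by positivity)
        have i4 : (25 + 2 * |e|) * τ ^ 4 ≤ (25 + 2 * |e|) * 1 :=
          mul_le_mul_of_nonneg_left p4 (by positivity)
        nlinarith
      have e : b = (4 * σ * (α ^ 2 - 2 * α * τ) - 16 * α * τ ^ 2 - 2 * |e| * τ ^ 4) / τ ^ 4 := by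
        simp only [hb]; field_simp
      rw [e, le_div_iff₀ (by positivity)]
      exact num
    by_cases h3 : σ < 3 / 4
    · rw [if_pos h3]
      refine mul_le_mul hb25 ?_ (exp_pos _).le (by linarith)
      rw [cut_eq hα0 h1, ← hτ]
      refine exp_le_exp.2 (neg_le_neg ?_)
      rw [div_le_iff₀ hτ0]
      nlinarith
    · rw [if_neg h3]
      exact mul_nonneg (by linarith) hc0

end Vale.Agent.P363.Two
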