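import Vale.Agent.P363.Two.Harnack.Barrier

/-!
Two electrons, Harnack block: the mass of a nonnegative solution doubles, uniformly in the scale.
-/

noncomputable section

open MeasureTheory Set Real Function Filter Topology
open scoped ENNReal

namespace Vale.Agent.P363.Two

/-- The round ball of configurations. -/
def sset (X : C2) (r : ℝ) : Set C2 := {Y : C2 | nsq (Y - X) < r ^ 2}

/-- The mass of `u` on a round ball. -/
def mass (u : C2 → ℝ) (X : C2) (r : ℝ) : ℝ := ∫ Y in sset X r, u Y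

lemma measurableSet_sset (X : C2) (r : ℝ) : MeasurableSet (sset X r) :=
  measurableSet_lt (continuous_nsq.measurable.comp (measurable_id.sub_const X)) measurable_const

lemma sset_subset {X : C2} {r r' : ℝ} (hr : 0 ≤ r) (h : r ≤ r') : sset X r ⊆ sset X r' :=
  fun _ hY => lt_of_lt_of_le hY (pow_le_pow_left₀ hr h 2)

lemma sset_subset_closedBall {X : C2} {r : ℝ} (hr : 0 ≤ r) :
    sset X r ⊆ Metric.closedBall X r := fun Y hY => by
  rw [Metric.mem_closedBall, dist_eq_norm]
  exact le_of_pow_le_pow_left₀ two_ne_zero hr ((norm_sq_le_nsq _).trans (le_of_lt hY))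

variable {M : ℕ} {Z : Fin M → ℕ} {R : Fin M → R3} {e : ℝ} {u : C2 → ℝ}

lemma IsSol.locallyIntegrable (h : IsSol Z R e u) : LocallyIntegrable u :=
  h.memLp.locallyIntegrable one_le_two

lemma IsSol.integrableOn (h : IsSol Z R e u) {r : ℝ} (hr : 0 ≤ r) (X : C2) :
    IntegrableOn u (sset X r) :=
  (h.locallyIntegrable.integrableOn_isCompact (isCompact_closedBall X r)).mono_set
    (sset_subset_closedBall hr)

lemma integrableOn_wmaj (X : C2) : IntegrableOn (wmaj R) (sset X 1) := by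
  refine ⟨(measurable_wmaj R).aestronglyMeasurable, ?_⟩
  rw [hasFiniteIntegral_iff_ofReal (ae_of_all _ fun Y => zero_le_one.trans (one_le_wmaj R Y))]
  calc ∫⁻ Y in sset X 1, ENNReal.ofReal (wmaj R Y)
      ≤ ∫⁻ Y, kern 4 1 (X - Y) * ENNReal.ofReal (wmaj R Y) := by
        rw [← lintegral_indicator (measurableSet_sset X 1)]
        refine lintegral_mono_ae ?_
        filter_upwards [ne_ae 0 (X 0)] with Y hY0
        have hY : Y ≠ X := fun h => hY0 (by rw [h])
        by_cases hm : Y ∈ sset X 1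
        · rw [indicator_of_mem hm]
          have hs : nsq (X - Y) = nsq (Y - X) := by rw [← nsq_neg, neg_sub]
          have hm' : X - Y ∈ {Z : C2 | nsq Z < (1 : ℝ) ^ 2} := by
            rw [mem_ofPred_eq, hs]; exact hm
          refine le_mul_of_one_le_left' ?_
          rw [kern, indicator_of_mem hm', ENNReal.one_le_ofReal]
          refine one_le_rpow_of_pos_of_le_one_of_nonpos ?_ ?_ (by norm_num)
          · refine lt_of_lt_of_le ?_ (norm_sq_le_nsq _)
            exact pow_pos (norm_pos_iff.2 (sub_ne_zero.2 hY.symm)) 2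
          · simpa using le_of_lt (show nsq (X - Y) < (1 : ℝ) ^ 2 from hm')
        · rw [indicator_of_notMem hm]
          exact bot_le
    _ < ⊤ := by
        refine lt_of_le_of_lt (kern4_bound R zero_le_one le_rfl X) ?_
        exact ENNReal.mul_lt_top (ENNReal.natCast_lt_top _)
          (ENNReal.pow_lt_top (powInt_lt_top (by norm_num) 1))

lemma IsSol.integrableOn_wmaj_mul (h : IsSol Z R e u) (X : C2) :
    IntegrableOn (fun Y => wmaj R Y * u Y) (sset X 1) := by
  have hi : IntegrableOn (fun Y => (wmaj R Y * u Y ^ 2 + wmaj R Y) / 2) (sset X 1) :=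
    (h.weighted.integrableOn.add (integrableOn_wmaj X)).div_const 2
  refine hi.mono' ((measurable_wmaj R).aestronglyMeasurable.mul
    h.memLp.aestronglyMeasurable.restrict) (ae_of_all _ fun Y => ?_)
  have hw := zero_le_one.trans (one_le_wmaj R Y)
  rw [norm_mul, Real.norm_eq_abs, Real.norm_eq_abs, abs_of_nonneg hw]
  nlinarith [mul_nonneg hw (sq_nonneg (|u Y| - 1)), sq_abs (u Y)]

/-- The constant in `|W - e| ≤ K wmaj`. -/
def bigK (Z : Fin M → ℕ) (e : ℝ) : ℝ := 1 + (∑ j, (Z j : ℝ)) + |e|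

lemma bigK_pos (Z : Fin M → ℕ) (e : ℝ) : 0 < bigK Z e := by
  unfold bigK; positivity

lemma abs_pot2_sub_le (X : C2) : |pot2 Z R X - e| ≤ bigK Z e * wmaj R X := by
  have hw := one_le_wmaj R X
  have hK : ∀ j, (Z j : ℝ) ≤ bigK Z e := fun j => by
    have := Finset.single_le_sum (f := fun j => (Z j : ℝ)) (fun j _ => Nat.cast_nonneg _)
      (Finset.mem_univ j)
    unfold bigK
    linarith [abs_nonneg e]
  have hK1 : 1 ≤ bigK Z e ∧ |e| ≤ bigK Z e := by
    have : 0 ≤ ∑ j, (Z j : ℝ) := Finset.sum_nonneg fun j _ => Nat.cast_nonneg _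
    unfold bigK
    constructor <;> linarith [abs_nonneg e]
  have hs : ∀ i, ∑ j, (Z j : ℝ) / ‖X i - R j‖ ≤ ∑ j, bigK Z e * ‖X i - R j‖⁻¹ := fun i =>
    Finset.sum_le_sum fun j _ => by
      rw [div_eq_mul_inv]; exact mul_le_mul_of_nonneg_right (hK j) (by positivity)
  have h0 : ∀ i, 0 ≤ ∑ j, (Z j : ℝ) / ‖X i - R j‖ := fun i =>
    Finset.sum_nonneg fun j _ => by positivity
  have hd : 0 ≤ ‖X 0 - X 1‖⁻¹ := by positivity
  have hd' : ‖X 0 - X 1‖⁻¹ ≤ bigK Z e * ‖X 0 - X 1‖⁻¹ := le_mul_of_one_le_left hd hK1.1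
  rw [wmaj, mul_add, mul_add, mul_one, Finset.mul_sum]
  simp only [mul_add, Finset.sum_add_distrib]
  rw [pot2, abs_le, one_div]
  constructor <;> linarith [hs 0, hs 1, h0 0, h0 1, le_abs_self e, neg_abs_le e]

/-- The mass on a larger ball is controlled by the mass on a smaller one. -/
theorem doubling (Z : Fin M → ℕ) (R : Fin M → R3) (e : ℝ) : ∃ C : ℝ, 1 ≤ C ∧
    ∀ u : C2 → ℝ, IsSol Z R e u → (∀ X, 0 ≤ u X) → ∀ (X : C2) (ρ : ℝ), 0 < ρ → 2 * ρ ≤ 1 →
      mass u X (√3 * ρ) ≤ C * mass u X ρ := by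
  set α := 25 + 2 * |e| with hα
  have hα0 : 0 < α := by positivity
  set c := exp (-1) * (25 * exp (-(4 * α))) with hc
  set C₀ := exp 1 * (64 * α + 2 * |e|) with hC₀
  have hc0 : 0 < c := by positivity
  have hC0 : 0 ≤ C₀ := by positivity
  refine ⟨1 + C₀ / c, by linarith [div_nonneg hC0 hc0.le], fun u h hu X₀ ρ hρ hρ1 => ?_⟩
  set r := 2 * ρ with hr
  have hr0 : 0 < r := by positivity
  set η : ℕ → C2 → ℝ := fun n => bar α (1 / (n + 1 : ℝ)) r X₀ with hη
  have hε : ∀ n : ℕ, (0 : ℝ) < 1 / (n + 1 : ℝ) := fun n => by positivity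
  have hS : sset X₀ r ⊆ sset X₀ 1 := sset_subset hr0.le hρ1
  have hu' : AEStronglyMeasurable u := h.memLp.aestronglyMeasurable
  set σ : C2 → ℝ := fun Y => nsq (Y - X₀) / r ^ 2 with hσ
  have hσm : Measurable σ :=
    (continuous_nsq.measurable.comp (measurable_id.sub_const X₀)).div_const _
  have core : {Y | σ Y < 1 / 4} = sset X₀ ρ := by
    ext Y
    simp only [hσ, hr, sset, mem_ofPred_eq]
    rw [div_lt_iff₀ (by positivity)]
    constructor <;> intro hh <;> linarith [show (2 * ρ) ^ 2 = 4 * ρ ^ 2 by ring]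
  have big : {Y | σ Y < 3 / 4} = sset X₀ (√3 * ρ) := by
    ext Y
    simp only [hσ, hr, sset, mem_ofPred_eq]
    rw [div_lt_iff₀ (by positivity), mul_pow (√3), sq_sqrt (by norm_num : (0 : ℝ) ≤ 3)]
    constructor <;> intro hh <;> linarith [show (2 * ρ) ^ 2 = 4 * ρ ^ 2 by ring]
  have hexp : ∀ (ε : ℝ) (Y : C2), 0 < ε → σ Y < 1 →
      exp (-1) ≤ exp (√(gap ε Y) / 2 - √(gap ε X₀) / 2) ∧
        exp (√(gap ε Y) / 2 - √(gap ε X₀) / 2) ≤ exp 1 := by
    intro ε Y hε hY
    have key : ∀ A B : C2, nsq (A - B) < r ^ 2 → √(gap ε A) ≤ √(gap ε B) + 2 := by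
      intro A B hAB
      rw [sqrt_le_iff]
      refine ⟨by positivity, ?_⟩
      have h1 : ‖A - B‖ ≤ 1 := by
        refine (le_of_pow_le_pow_left₀ two_ne_zero hr0.le ((norm_sq_le_nsq _).trans hAB.le)).trans ?_
        exact hρ1
      have h0' := norm_le_pi_norm (A - B) 0
      have h1' := norm_le_pi_norm (A - B) 1
      simp only [Pi.sub_apply] at h0' h1'
      have h2 : ‖A 0 - A 1‖ ≤ ‖B 0 - B 1‖ + 2 := by
        have e1 : A 0 - A 1 = (B 0 - B 1) + (A 0 - B 0) - (A 1 - B 1) := by abel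
        rw [e1]
        linarith [norm_sub_le ((B 0 - B 1) + (A 0 - B 0)) (A 1 - B 1),
          norm_add_le (B 0 - B 1) (A 0 - B 0)]
      have h3 : ‖B 0 - B 1‖ ≤ √(gap ε B) := le_sqrt_of_sq_le (by simp [gap]; positivity)
      have h4 := sq_sqrt (gap_pos hε B).le
      have h5 := pow_le_pow_left₀ (norm_nonneg _) h2 2
      simp only [gap] at *
      nlinarith
    have hY' : nsq (Y - X₀) < r ^ 2 := (div_lt_one (by positivity)).1 hY
    have e1 := key Y X₀ hY'
    have e2 := key X₀ Y (by rwa [← nsq_neg, neg_sub])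
    constructor <;> exact exp_le_exp.2 (by linarith)
  have hbar : ∀ (n : ℕ) (Y : C2), 0 ≤ η n Y ∧ η n Y ≤ exp 1 ∧ (Y ∉ sset X₀ r → η n Y = 0) := by
    intro n Y
    have h0 : Y ∉ sset X₀ r → η n Y = 0 := fun hY =>
      bar_zero hα0.le hr0 (not_lt.1 hY)
    refine ⟨mul_nonneg (exp_pos _).le (cut_nonneg _ _), ?_, h0⟩
    by_cases hY : Y ∈ sset X₀ r
    · have := hexp _ Y (hε n) ((div_lt_one (by positivity)).2 hY)
      exact (mul_le_mul this.2 (cut_le_one hα0 _) (cut_nonneg _ _) (exp_pos _).le).trans_eq (mul_one _)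
    · rw [h0 hY]; positivity
  set P : C2 → ℝ := fun Y => ({Y | σ Y < 3 / 4}.indicator (fun Y => c * u Y) Y
    - {Y | σ Y < 1 / 4}.indicator (fun Y => (c + C₀) * u Y) Y) / r ^ 2 with hP
  set D : ℕ → C2 → ℝ := fun n Y =>
    2 * (η n Y * (1 / ‖Y 0 - Y 1‖ - 1 / √(gap (1 / (n + 1 : ℝ)) Y)) * u Y) with hD
  have pointwise : ∀ n Y, P Y - D n Y
      ≤ u Y * lap (η n) Y - 2 * (pot2 Z R Y - e) * u Y * η n Y := by
    intro n Y
    have h1 := bar_op (Z := Z) (R := R) (e := e) hα (hε n) hr0 hρ1 X₀ Y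
    have h2 := profile_bound (e := e) hα (σ := σ Y) (div_nonneg (nsq_nonneg _) (sq_nonneg r))
    rw [show nsq (Y - X₀) / r ^ 2 = σ Y from rfl] at h1
    set E := exp (√(gap (1 / (n + 1 : ℝ)) Y) / 2 - √(gap (1 / (n + 1 : ℝ)) X₀) / 2) with hE
    set b := 4 * σ Y * cut2 α (σ Y) + 16 * cut1 α (σ Y) - 2 * |e| * cut α (σ Y) with hb
    have hP' : P Y ≤ E / r ^ 2 * b * u Y := by
      have hgoal : P Y * r ^ 2 ≤ E * b * u Y := by
        simp only [hP]
        rw [div_mul_cancel₀ _ (by positivity)]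
        by_cases h4 : σ Y < 1 / 4
        · rw [indicator_of_mem (show Y ∈ {Y | σ Y < 3 / 4} from lt_trans h4 (by norm_num)), indicator_of_mem (show Y ∈ {Y | σ Y < 1 / 4} from h4)]
          rw [if_pos h4] at h2
          have hEb := hexp _ Y (hε n) (lt_trans h4 (by norm_num))
          have : -C₀ ≤ E * b := by
            refine le_trans ?_ (mul_le_mul_of_nonneg_left h2 (exp_pos _).le)
            rw [hC₀, mul_neg, neg_le_neg_iff]
            exact mul_le_mul_of_nonneg_right hEb.2 (by positivity)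
          linarith [mul_le_mul_of_nonneg_right this (hu Y)]
        rw [indicator_of_notMem (show Y ∉ {Y | σ Y < 1 / 4} from h4), sub_zero]
        rw [if_neg h4] at h2
        by_cases h3 : σ Y < 3 / 4
        · rw [indicator_of_mem (show Y ∈ {Y | σ Y < 3 / 4} from h3)]
          rw [if_pos h3] at h2
          have hEb := hexp _ Y (hε n) (lt_trans h3 (by norm_num))
          exact mul_le_mul_of_nonneg_right
            (mul_le_mul hEb.1 h2 (by positivity) (exp_pos _).le) (hu Y)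
        · rw [indicator_of_notMem (show Y ∉ {Y | σ Y < 3 / 4} from h3)]
          rw [if_neg h3] at h2
          exact mul_nonneg (mul_nonneg (exp_pos _).le h2) (hu Y)
      calc P Y = P Y * r ^ 2 / r ^ 2 := by field_simp
        _ ≤ E * b * u Y / r ^ 2 := div_le_div_of_nonneg_right hgoal (sq_nonneg r)
        _ = _ := by ring
    have h3 := mul_le_mul_of_nonneg_right h1 (hu Y)
    simp only [hD, hη]
    linarith
  set dom : C2 → ℝ := (sset X₀ r).indicator
    (fun Y => (2 * bigK Z e + 2) * exp 1 * |wmaj R Y * u Y|) with hdom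
  have idom : Integrable dom := by
    rw [hdom, integrable_indicator_iff (measurableSet_sset X₀ r)]
    exact (((h.integrableOn_wmaj_mul X₀).mono_set hS).abs).const_mul _
  have hwu : ∀ Y, |wmaj R Y * u Y| = wmaj R Y * |u Y| := fun Y => by
    rw [abs_mul, abs_of_nonneg (zero_le_one.trans (one_le_wmaj R Y))]
  have hηm : ∀ n, AEStronglyMeasurable (η n) := fun n =>
    (isTest_bar (α := α) hα0.le (hε n) hr0 X₀).1.continuous.aestronglyMeasurable
  have hDm : ∀ n, AEStronglyMeasurable (D n) := fun n => by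
    have hm : Measurable fun Y : C2 =>
        1 / ‖Y 0 - Y 1‖ - 1 / √(gap (1 / (n + 1 : ℝ)) Y) := by unfold gap; fun_prop
    exact (((hηm n).mul hm.aestronglyMeasurable).mul hu').const_mul 2
  have hDb : ∀ n, ∀ᵐ Y, ‖D n Y‖ ≤ dom Y := fun n => by
    filter_upwards [apart_ae] with Y hY01
    by_cases hY : Y ∈ sset X₀ r
    · have hd : 0 < ‖Y 0 - Y 1‖ := norm_pos_iff.2 (sub_ne_zero.2 hY01)
      have hsq : ‖Y 0 - Y 1‖ ≤ √(gap (1 / (n + 1 : ℝ)) Y) :=
        le_sqrt_of_sq_le (by simp [gap]; positivity)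
      have h1 : |1 / ‖Y 0 - Y 1‖ - 1 / √(gap (1 / (n + 1 : ℝ)) Y)| ≤ wmaj R Y := by
        have hw : 1 / ‖Y 0 - Y 1‖ ≤ wmaj R Y := by
          have : 0 ≤ ∑ j, (‖Y 0 - R j‖⁻¹ + ‖Y 1 - R j‖⁻¹) :=
            Finset.sum_nonneg fun j _ => by positivity
          unfold wmaj
          rw [one_div]
          linarith
        have h2 : 0 ≤ 1 / √(gap (1 / (n + 1 : ℝ)) Y) := by positivity
        have h3 : 1 / √(gap (1 / (n + 1 : ℝ)) Y) ≤ 1 / ‖Y 0 - Y 1‖ :=
          one_div_le_one_div_of_le hd hsq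
        rw [abs_le]
        constructor <;> linarith
      simp only [hdom, indicator_of_mem hY, hwu]
      simp only [hD, Real.norm_eq_abs, abs_mul, abs_two]
      rw [abs_of_nonneg (hbar n Y).1]
      have hw0 := zero_le_one.trans (one_le_wmaj R Y)
      calc 2 * (η n Y * |1 / ‖Y 0 - Y 1‖ - 1 / √(gap (1 / (n + 1 : ℝ)) Y)| * |u Y|)
          ≤ 2 * (exp 1 * wmaj R Y * |u Y|) := by
            gcongr
            exact (hbar n Y).2.1
        _ ≤ _ := by
            have hK := bigK_pos Z e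
            nlinarith [mul_nonneg (mul_nonneg hw0 (abs_nonneg (u Y))) (exp_pos (1 : ℝ)).le]
    · simp [hdom, hD, (hbar n Y).2.2 hY, indicator_of_notMem hY]
  have hiV : ∀ n, Integrable fun Y => 2 * (pot2 Z R Y - e) * u Y * η n Y := fun n => by
    refine idom.mono' ?_ (ae_of_all _ fun Y => ?_)
    · unfold pot2
      exact (((Measurable.aestronglyMeasurable (by fun_prop)).sub
        aestronglyMeasurable_const).const_mul 2 |>.mul hu').mul (hηm n)
    by_cases hY : Y ∈ sset X₀ r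
    · simp only [hdom, indicator_of_mem hY, hwu]
      simp only [Real.norm_eq_abs, abs_mul, abs_two]
      rw [abs_of_nonneg (hbar n Y).1]
      have hw0 := zero_le_one.trans (one_le_wmaj R Y)
      have hK := bigK_pos Z e
      calc 2 * |pot2 Z R Y - e| * |u Y| * η n Y
          ≤ 2 * (bigK Z e * wmaj R Y) * |u Y| * exp 1 := by
            gcongr
            · exact (hbar n Y).1
            · exact abs_pot2_sub_le Y
            · exact (hbar n Y).2.1
        _ ≤ _ := by
            nlinarith [mul_nonneg (mul_nonneg hw0 (abs_nonneg (u Y))) (exp_pos (1 : ℝ)).le]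
    · simp [hdom, (hbar n Y).2.2 hY, indicator_of_notMem hY]
  have hiL : ∀ n, Integrable fun Y => u Y * lap (η n) Y := fun n => by
    obtain ⟨hsm, hcs⟩ := isTest_bar (α := α) hα0.le (hε n) hr0 X₀
    have hpd : ∀ i k (f : C2 → ℝ), ContDiff ℝ (⊤ : ℕ∞) f → HasCompactSupport f →
        ContDiff ℝ (⊤ : ℕ∞) (pd i k f) ∧ HasCompactSupport (pd i k f) := fun i k f hf hc =>
      ⟨(hf.fderiv_right (m := (⊤ : ℕ∞)) (by simp)).clm_apply contDiff_const,
        (hc.fderiv (𝕜 := ℝ)).comp_left (g := fun L : C2 →L[ℝ] ℝ => L (dir i k)) rfl⟩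
    have i2 : ∀ i k, Integrable fun Y => u Y * pd i k (pd i k (η n)) Y := fun i k => by
      obtain ⟨h1, h2⟩ := hpd i k _ (hpd i k _ hsm hcs).1 (hpd i k _ hsm hcs).2
      simpa [hη, mul_comm] using
        h.locallyIntegrable.integrable_smul_left_of_hasCompactSupport h1.continuous h2
    simp only [lap, Finset.mul_sum]
    exact integrable_finsetSum _ fun i _ => integrable_finsetSum _ fun k _ => i2 i k
  have m34 : MeasurableSet {Y | σ Y < 3 / 4} := measurableSet_lt hσm measurable_const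
  have m14 : MeasurableSet {Y | σ Y < 1 / 4} := measurableSet_lt hσm measurable_const
  have i34 : IntegrableOn u {Y | σ Y < 3 / 4} := by
    rw [big]; exact h.integrableOn (by positivity) X₀
  have i14 : IntegrableOn u {Y | σ Y < 1 / 4} := by
    rw [core]; exact h.integrableOn hρ.le X₀
  have iP : Integrable P :=
    (((integrable_indicator_iff m34).2 (i34.const_mul c)).sub
      ((integrable_indicator_iff m14).2 (i14.const_mul (c + C₀)))).div_const _
  have hle : ∀ n, ∫ Y, P Y ≤ ∫ Y, D n Y := fun n => by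
    have h0 := integral_mono (iP.sub (idom.mono' (hDm n) (hDb n))) ((hiL n).sub (hiV n)) (pointwise n)
    rw [integral_sub' iP (idom.mono' (hDm n) (hDb n)), integral_sub' (hiL n) (hiV n),
      h.eqn (η n) (isTest_bar hα0.le (hε n) hr0 X₀), sub_self] at h0
    linarith
  have hlim : Tendsto (fun n => ∫ Y, D n Y) atTop (𝓝 0) := by
    have := tendsto_integral_of_dominated_convergence (f := fun _ => (0 : ℝ)) dom hDm idom hDb ?_
    · simpa using this
    filter_upwards [apart_ae] with Y hY01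
    have hd : 0 < ‖Y 0 - Y 1‖ := norm_pos_iff.2 (sub_ne_zero.2 hY01)
    have ht : Tendsto (fun n : ℕ => 1 / ‖Y 0 - Y 1‖ - 1 / √(gap (1 / (n + 1 : ℝ)) Y)) atTop
        (𝓝 0) := by
      have hg : Tendsto (fun n : ℕ => √(gap (1 / (n + 1 : ℝ)) Y)) atTop (𝓝 ‖Y 0 - Y 1‖) := by
        have h1 := ((tendsto_one_div_add_atTop_nhds_zero_nat (𝕜 := ℝ)).pow 2).add_const
          (‖Y 0 - Y 1‖ ^ 2) |>.sqrt
        simpa [gap, sqrt_sq (norm_nonneg _)] using h1
      simpa [one_div] using ((hg.inv₀ hd.ne').const_sub (1 / ‖Y 0 - Y 1‖))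
    have hb : Tendsto (fun n : ℕ => η n Y * (1 / ‖Y 0 - Y 1‖ - 1 / √(gap (1 / (n + 1 : ℝ)) Y)))
        atTop (𝓝 0) := by
      refine squeeze_zero_norm (a := fun n : ℕ => exp 1 *
        ‖1 / ‖Y 0 - Y 1‖ - 1 / √(gap (1 / (n + 1 : ℝ)) Y)‖) (fun n => ?_)
        (by simpa using (ht.norm.const_mul (exp 1)))
      rw [norm_mul, Real.norm_eq_abs, abs_of_nonneg (hbar n Y).1]
      exact mul_le_mul_of_nonneg_right (hbar n Y).2.1 (norm_nonneg _)
    simpa [hD] using (hb.mul_const (u Y)).const_mul 2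
  have hP0 : ∫ Y, P Y ≤ 0 := ge_of_tendsto' hlim hle
  simp only [hP] at hP0
  rw [integral_div, integral_sub ((integrable_indicator_iff m34).2 (i34.const_mul c))
    ((integrable_indicator_iff m14).2 (i14.const_mul (c + C₀))), integral_indicator m34,
    integral_indicator m14, integral_const_mul, integral_const_mul, core, big] at hP0
  have hnum := (div_le_iff₀ (by positivity : (0 : ℝ) < r ^ 2)).1 hP0
  rw [zero_mul] at hnum
  unfold mass
  rw [show 1 + C₀ / c = (c + C₀) / c by field_simp, div_mul_eq_mul_div, le_div_iff₀ hc0]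
  linarith

end Vale.Agent.P363.Two
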