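import Vale.Agent.P363.Two.Kernel

/-!
Two electrons, Harnack block: the singular integrals of the truncated kernels against the Coulomb
majorant.
-/

noncomputable section

open MeasureTheory Set Real Function Metric
open scoped ENNReal

namespace Vale.Agent.P363.Two

/-- The truncated homogeneous kernel of degree `-q` on `ℝ⁶`. -/
def kern (q d : ℝ) (Z : C2) : ℝ≥0∞ :=
  {Z : C2 | nsq Z < d ^ 2}.indicator (fun Z => ENNReal.ofReal (nsq Z ^ (-(q / 2)))) Z

/-- The truncated power on `ℝ³`. -/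
def pw (p d : ℝ) (a : R3) : ℝ≥0∞ :=
  (ball (0 : R3) d).indicator (fun a => ENNReal.ofReal (‖a‖ ^ (-p))) a

/-- Its integral. -/
def powInt (p d : ℝ) : ℝ≥0∞ := ∫⁻ a, pw p d a

lemma measurable_kern (q d : ℝ) : Measurable (kern q d) := by
  unfold kern
  exact ((continuous_nsq.measurable.pow_const _).ennreal_ofReal).indicator
    (measurableSet_lt continuous_nsq.measurable measurable_const)

lemma measurable_pw (p d : ℝ) : Measurable (pw p d) :=
  ((continuous_norm.measurable.pow_const _).ennreal_ofReal).indicator measurableSet_ball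

lemma powInt_lt_top {p : ℝ} (hp : p < 3) (d : ℝ) : powInt p d < ⊤ := by
  have h : IntegrableOn (fun a : R3 => ‖a‖ ^ (-p)) (ball 0 d) := by
    refine integrableOn_ball_of_norm_le_rpow (μ := volume) (C := 1) (α := p) (by simp) (by simp [hp])
      (ae_of_all _ fun x => ?_) (continuous_norm.measurable.pow_const _).aestronglyMeasurable
    rw [one_mul, Real.norm_of_nonneg (rpow_nonneg (norm_nonneg _) _)]
  have h2 := h.hasFiniteIntegral
  rw [hasFiniteIntegral_iff_ofReal (ae_of_all _ fun x => rpow_nonneg (norm_nonneg _) _)] at h2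
  show ∫⁻ a, (ball (0 : R3) d).indicator (fun a => ENNReal.ofReal (‖a‖ ^ (-p))) a < ⊤
  rwa [lintegral_indicator measurableSet_ball]

lemma powInt_mono {p p' d : ℝ} (hd : d ≤ 1) (hp : p ≤ p') : powInt p d ≤ powInt p' d := by
  refine lintegral_mono_ae ?_
  filter_upwards [Measure.ae_ne volume (0 : R3)] with a ha
  refine indicator_le_indicator' fun hmem => ENNReal.ofReal_le_ofReal ?_
  exact rpow_le_rpow_of_exponent_ge (norm_pos_iff.2 ha)
    ((mem_ball_zero_iff.1 hmem).le.trans hd) (by linarith)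

lemma powInt_radius_mono {p d d' : ℝ} (h : d ≤ d') : powInt p d ≤ powInt p d' :=
  lintegral_mono fun a =>
    indicator_le_indicator_of_subset (ball_subset_ball h) (fun _ => bot_le) a

/-- The two-centre split. -/
lemma rpow_split {α β γ : ℝ} (hα : 0 < α) (hβ : 0 < β) (hγ : 0 ≤ γ) (hγα : γ ≤ α) (hγβ : γ ≤ β)
    {x a : R3} (hx : γ = 0 ∨ x ≠ 0) :
    ‖a‖ ^ (-α) * ‖x - a‖ ^ (-β) ≤ (‖x‖ / 2) ^ (-γ) *
      (if ‖a‖ ≤ ‖x - a‖ then ‖a‖ ^ (-(α + β - γ)) else ‖x - a‖ ^ (-(α + β - γ))) := by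
  rcases eq_or_ne ‖a‖ 0 with ha | ha
  · rw [ha, zero_rpow (neg_ne_zero.2 hα.ne'), zero_mul]
    split_ifs <;> positivity
  rcases eq_or_ne ‖x - a‖ 0 with hb | hb
  · rw [hb, zero_rpow (neg_ne_zero.2 hβ.ne'), mul_zero]
    split_ifs <;> positivity
  have ha' : 0 < ‖a‖ := lt_of_le_of_ne (norm_nonneg _) (Ne.symm ha)
  have hb' : 0 < ‖x - a‖ := lt_of_le_of_ne (norm_nonneg _) (Ne.symm hb)
  have key : ∀ {s t : ℝ} {σ τ : ℝ}, 0 < s → s ≤ t → ‖x‖ / 2 ≤ t → γ ≤ τ → 0 ≤ τ →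
      t ^ (-τ) * s ^ (-σ) ≤ (‖x‖ / 2) ^ (-γ) * s ^ (-(σ + τ - γ)) := by
    intro s t σ τ hs hst hxt hτ _
    have ht : 0 < t := hs.trans_le hst
    have e1 : t ^ (-τ) = t ^ (-γ) * t ^ (-(τ - γ)) := by
      rw [← rpow_add ht]; ring_nf
    have h1 : t ^ (-γ) ≤ (‖x‖ / 2) ^ (-γ) := by
      rcases hx with h | h
      · simp [h]
      · exact rpow_le_rpow_of_nonpos (by have := norm_pos_iff.2 h; positivity) hxt (by linarith)
    have h2 : t ^ (-(τ - γ)) ≤ s ^ (-(τ - γ)) := rpow_le_rpow_of_nonpos hs hst (by linarith)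
    calc t ^ (-τ) * s ^ (-σ) ≤ (‖x‖ / 2) ^ (-γ) * s ^ (-(τ - γ)) * s ^ (-σ) := by
          rw [e1]
          gcongr
      _ = (‖x‖ / 2) ^ (-γ) * s ^ (-(σ + τ - γ)) := by
          rw [mul_assoc, ← rpow_add hs]; ring_nf
  have htri : ‖x‖ ≤ ‖x - a‖ + ‖a‖ := by simpa using norm_add_le (x - a) a
  by_cases h : ‖a‖ ≤ ‖x - a‖
  · rw [if_pos h, mul_comm (‖a‖ ^ (-α))]
    exact key ha' h (by linarith) hγβ hβ.le
  · rw [if_neg h]
    have := key (σ := β) (τ := α) hb' (le_of_not_ge h) (by linarith) hγα hα.le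
    rwa [add_comm β α] at this

/-- One fibre of a singular integral. -/
lemma fibre_bound {α β γ p : ℝ} (hα : 0 < α) (hβ : 0 < β) (hγ : 0 ≤ γ) (hγα : γ ≤ α) (hγβ : γ ≤ β)
    (hp : p = α + β - γ) (d : ℝ) {x : R3} (hx : γ = 0 ∨ x ≠ 0) :
    ∫⁻ a, pw α d a * ENNReal.ofReal (‖x - a‖ ^ (-β))
      ≤ ENNReal.ofReal ((‖x‖ / 2) ^ (-γ)) * (2 * powInt p d) := by
  have h : ∀ a, pw α d a * ENNReal.ofReal (‖x - a‖ ^ (-β))
      ≤ ENNReal.ofReal ((‖x‖ / 2) ^ (-γ)) * (pw p d a + pw p d (x - a)) := fun a => by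
    by_cases ha : a ∈ ball (0 : R3) d
    · rw [pw, indicator_of_mem ha, ← ENNReal.ofReal_mul (rpow_nonneg (norm_nonneg _) _)]
      refine (ENNReal.ofReal_le_ofReal (rpow_split hα hβ hγ hγα hγβ hx)).trans ?_
      rw [ENNReal.ofReal_mul (by positivity), ← hp]
      refine mul_le_mul' le_rfl ?_
      by_cases hs : ‖a‖ ≤ ‖x - a‖
      · rw [if_pos hs, pw, indicator_of_mem ha]
        exact le_self_add
      · rw [if_neg hs]
        have : x - a ∈ ball (0 : R3) d :=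
          mem_ball_zero_iff.2 ((not_le.1 hs).trans (mem_ball_zero_iff.1 ha))
        rw [show pw p d (x - a) = _ from indicator_of_mem this _]
        exact le_add_self
    · rw [pw, indicator_of_notMem ha, zero_mul]
      exact bot_le
  refine (lintegral_mono h).trans_eq ?_
  have hm : Measurable fun a => pw p d a + pw p d (x - a) :=
    (measurable_pw p d).fun_add ((measurable_pw p d).comp (measurable_const.sub measurable_id))
  rw [lintegral_const_mul _ hm,
    lintegral_add_left (measurable_pw p d), lintegral_sub_left_eq_self (pw p d) x, ← two_mul]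
  rfl

lemma lintegral_pair {i j : Fin 2} (hij : i ≠ j) {F : R3 → R3 → ℝ≥0∞}
    (hF : Measurable (uncurry F)) :
    ∫⁻ Z : C2, F (Z i) (Z j) = ∫⁻ b, ∫⁻ a, F a b := by
  have h := volume_preserving_piFinTwo (fun _ : Fin 2 => R3)
  have hsw : Measurable (uncurry fun a b => F b a) := hF.comp measurable_swap
  fin_cases i <;> fin_cases j
  · exact absurd rfl hij
  · have := h.lintegral_comp hF
    rw [Measure.volume_eq_prod, lintegral_prod_symm _ hF.aemeasurable] at this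
    simpa [MeasurableEquiv.piFinTwo] using this
  · have := h.lintegral_comp hsw
    rw [Measure.volume_eq_prod, lintegral_prod _ hsw.aemeasurable] at this
    simpa [MeasurableEquiv.piFinTwo] using this
  · exact absurd rfl hij

lemma ne_zero_ae (i : Fin 2) : ∀ᵐ Z : C2, Z i ≠ 0 :=
  (Measure.quasiMeasurePreserving_eval (μ := fun _ : Fin 2 => (volume : Measure R3)) i).ae
    (Measure.ae_ne volume (0 : R3))

lemma nsq_eq {i j : Fin 2} (hij : i ≠ j) (Z : C2) : nsq Z = ‖Z i‖ ^ 2 + ‖Z j‖ ^ 2 := by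
  fin_cases i <;> fin_cases j
  · exact absurd rfl hij
  · rfl
  · simp [nsq, add_comm]
  · exact absurd rfl hij

/-- The kernel is dominated by a product. -/
lemma kern_le {q α α' d : ℝ} (hd : 0 ≤ d) (hq : q = α + α') (hα : 0 ≤ α) (hα' : 0 ≤ α')
    {i j : Fin 2} (hij : i ≠ j) : ∀ᵐ Z : C2, kern q d Z ≤ pw α d (Z i) * pw α' d (Z j) := by
  filter_upwards [ne_zero_ae i, ne_zero_ae j] with Z hi hj
  by_cases h : nsq Z < d ^ 2
  · have ha := norm_pos_iff.2 hi
    have hb := norm_pos_iff.2 hj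
    have hn := nsq_eq hij Z
    have h1 : ‖Z i‖ < d := lt_of_pow_lt_pow_left₀ 2 hd (by nlinarith)
    have h2 : ‖Z j‖ < d := lt_of_pow_lt_pow_left₀ 2 hd (by nlinarith)
    rw [kern, indicator_of_mem (show Z ∈ {Z : C2 | nsq Z < d ^ 2} from h), pw, pw,
      indicator_of_mem (mem_ball_zero_iff.2 h1), indicator_of_mem (mem_ball_zero_iff.2 h2),
      ← ENNReal.ofReal_mul (rpow_nonneg (norm_nonneg _) _)]
    refine ENNReal.ofReal_le_ofReal ?_
    have key : ∀ {s σ : ℝ}, 0 < s → 0 ≤ σ → s ^ 2 ≤ nsq Z → nsq Z ^ (-(σ / 2)) ≤ s ^ (-σ) := by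
      intro s σ hs hσ hle
      refine (rpow_le_rpow_of_nonpos (by positivity) hle (by linarith)).trans_eq ?_
      rw [← rpow_natCast s 2, ← rpow_mul hs.le]
      push_cast
      ring_nf
    have e : nsq Z ^ (-(q / 2)) = nsq Z ^ (-(α / 2)) * nsq Z ^ (-(α' / 2)) := by
      rw [← rpow_add (by nlinarith), hq]; ring_nf
    rw [e]
    exact mul_le_mul (key ha hα (by nlinarith)) (key hb hα' (by nlinarith))
      (rpow_nonneg (nsq_nonneg _) _) (by positivity)
  · rw [kern, indicator_of_notMem (show Z ∉ {Z : C2 | nsq Z < d ^ 2} from h)]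
    exact bot_le

/-- The kernel against the inverse distance to a nucleus. -/
lemma kern_nucleus {q α α' β γ p d : ℝ} (hd : 0 ≤ d) (hq : q = α + α') (hα : 0 < α) (hα' : 0 ≤ α')
    (hβ : 0 < β) (hγ : 0 ≤ γ) (hγα : γ ≤ α) (hγβ : γ ≤ β) (hp : p = α + β - γ)
    {i j : Fin 2} (hij : i ≠ j) {x : R3} (hx : γ = 0 ∨ x ≠ 0) :
    ∫⁻ Z, kern q d Z * ENNReal.ofReal (‖x - Z i‖ ^ (-β))
      ≤ ENNReal.ofReal ((‖x‖ / 2) ^ (-γ)) * (2 * powInt p d) * powInt α' d := by
  have hm : Measurable fun a : R3 => pw α d a * ENNReal.ofReal (‖x - a‖ ^ (-β)) :=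
    (measurable_pw α d).mul
      ((((measurable_const.sub measurable_id).norm).pow_const _).ennreal_ofReal)
  calc ∫⁻ Z, kern q d Z * ENNReal.ofReal (‖x - Z i‖ ^ (-β))
      ≤ ∫⁻ Z : C2, pw α d (Z i) * ENNReal.ofReal (‖x - Z i‖ ^ (-β)) * pw α' d (Z j) := by
        refine lintegral_mono_ae ?_
        filter_upwards [kern_le hd hq hα.le hα' hij] with Z hZ
        calc kern q d Z * ENNReal.ofReal (‖x - Z i‖ ^ (-β))
            ≤ pw α d (Z i) * pw α' d (Z j) * ENNReal.ofReal (‖x - Z i‖ ^ (-β)) :=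
              mul_le_mul' hZ le_rfl
          _ = _ := by ring
    _ = ∫⁻ b, (∫⁻ a, pw α d a * ENNReal.ofReal (‖x - a‖ ^ (-β))) * pw α' d b := by
        rw [lintegral_pair hij (F := fun a b => pw α d a * ENNReal.ofReal (‖x - a‖ ^ (-β)) * pw α' d b)
          ((hm.comp measurable_fst).mul ((measurable_pw α' d).comp measurable_snd))]
        exact lintegral_congr fun b => lintegral_mul_const _ hm
    _ ≤ _ := by
        rw [lintegral_const_mul _ (measurable_pw α' d)]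
        exact mul_le_mul' (fibre_bound hα hβ hγ hγα hγβ hp d hx) le_rfl

/-- The kernel against the inverse distance of the two electrons. -/
lemma kern_pair_le {q α α' β d : ℝ} (hd : 0 ≤ d) (hq : q = α + α') (hα : 0 ≤ α) (hα' : 0 ≤ α')
    (x : R3) : ∫⁻ Z, kern q d Z * ENNReal.ofReal (‖x - (Z 0 - Z 1)‖ ^ (-β))
      ≤ ∫⁻ b, (∫⁻ a, pw α d a * ENNReal.ofReal (‖x + b - a‖ ^ (-β))) * pw α' d b := by
  have hm : Measurable fun z : R3 × R3 =>
      pw α d z.1 * ENNReal.ofReal (‖x + z.2 - z.1‖ ^ (-β)) * pw α' d z.2 :=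
    (((measurable_pw α d).comp measurable_fst).mul
      (((((measurable_const.add measurable_snd).sub measurable_fst)).norm).pow_const
        _).ennreal_ofReal).mul ((measurable_pw α' d).comp measurable_snd)
  have h01 : (0 : Fin 2) ≠ 1 := by decide
  calc ∫⁻ Z, kern q d Z * ENNReal.ofReal (‖x - (Z 0 - Z 1)‖ ^ (-β))
      ≤ ∫⁻ Z : C2, pw α d (Z 0) * ENNReal.ofReal (‖x + Z 1 - Z 0‖ ^ (-β)) * pw α' d (Z 1) := by
        refine lintegral_mono_ae ?_
        filter_upwards [kern_le hd hq hα hα' h01] with Z hZ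
        rw [show x - (Z 0 - Z 1) = x + Z 1 - Z 0 by abel]
        calc kern q d Z * ENNReal.ofReal (‖x + Z 1 - Z 0‖ ^ (-β))
            ≤ pw α d (Z 0) * pw α' d (Z 1) * ENNReal.ofReal (‖x + Z 1 - Z 0‖ ^ (-β)) :=
              mul_le_mul' hZ le_rfl
          _ = _ := by ring
    _ = _ := by
        rw [lintegral_pair h01 (F := fun a b =>
          pw α d a * ENNReal.ofReal (‖x + b - a‖ ^ (-β)) * pw α' d b) hm]
        refine lintegral_congr fun b => lintegral_mul_const _ ((measurable_pw α d).mul ?_)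
        exact (((measurable_const.sub measurable_id).norm).pow_const _).ennreal_ofReal

variable {M : ℕ} (R : Fin M → R3)

lemma measurable_wmaj : Measurable (wmaj R) := by
  unfold wmaj
  fun_prop

lemma one_le_wmaj (X : C2) : 1 ≤ wmaj R X := by
  unfold wmaj
  have : 0 ≤ ∑ j, (‖X 0 - R j‖⁻¹ + ‖X 1 - R j‖⁻¹) := Finset.sum_nonneg fun j _ => by positivity
  linarith [inv_nonneg.2 (norm_nonneg (X 0 - X 1))]

lemma ofReal_wmaj (X : C2) : ENNReal.ofReal (wmaj R X) = 1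
    + (∑ j, (ENNReal.ofReal (‖X 0 - R j‖ ^ (-1 : ℝ)) + ENNReal.ofReal (‖X 1 - R j‖ ^ (-1 : ℝ))))
    + ENNReal.ofReal (‖X 0 - X 1‖ ^ (-1 : ℝ)) := by
  have e : ∀ y : R3, ‖y‖ ^ (-1 : ℝ) = ‖y‖⁻¹ := fun y => rpow_neg_one _
  simp only [e, wmaj]
  have h0 : 0 ≤ ∑ j, (‖X 0 - R j‖⁻¹ + ‖X 1 - R j‖⁻¹) :=
    Finset.sum_nonneg fun j _ => by positivity
  rw [ENNReal.ofReal_add (by linarith) (by positivity), ENNReal.ofReal_add zero_le_one h0,
    ENNReal.ofReal_one, ENNReal.ofReal_sum_of_nonneg fun j _ => by positivity]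
  congr 2
  exact Finset.sum_congr rfl fun j _ => ENNReal.ofReal_add (by positivity) (by positivity)

lemma lintegral_kern_wmaj (q d : ℝ) (X : C2) :
    ∫⁻ Y, kern q d (X - Y) * ENNReal.ofReal (wmaj R Y) = (∫⁻ Z, kern q d Z)
      + (∑ j, ((∫⁻ Z, kern q d Z * ENNReal.ofReal (‖X 0 - R j - Z 0‖ ^ (-1 : ℝ)))
        + ∫⁻ Z, kern q d Z * ENNReal.ofReal (‖X 1 - R j - Z 1‖ ^ (-1 : ℝ))))
      + ∫⁻ Z, kern q d Z * ENNReal.ofReal (‖X 0 - X 1 - (Z 0 - Z 1)‖ ^ (-1 : ℝ)) := by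
  rw [← lintegral_sub_left_eq_self _ X]
  simp only [sub_sub_cancel, ofReal_wmaj, Pi.sub_apply, mul_add, Finset.mul_sum, mul_one,
    sub_right_comm (X 0) _ (R _), sub_right_comm (X 1) _ (R _), sub_sub_sub_comm (X 0) _ (X 1)]
  have hk := measurable_kern q d
  have hn : ∀ (i : Fin 2) (y : R3), Measurable fun Z : C2 =>
      kern q d Z * ENNReal.ofReal (‖y - Z i‖ ^ (-1 : ℝ)) := fun i y =>
    hk.mul (((measurable_const.sub (measurable_pi_apply i)).norm.pow_const _).ennreal_ofReal)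
  have hs : Measurable fun Z : C2 => ∑ j, (kern q d Z * ENNReal.ofReal (‖X 0 - R j - Z 0‖ ^ (-1 : ℝ))
      + kern q d Z * ENNReal.ofReal (‖X 1 - R j - Z 1‖ ^ (-1 : ℝ))) :=
    Finset.measurable_sum _ fun j _ => (hn 0 _).add (hn 1 _)
  rw [lintegral_add_left (hk.fun_add hs), lintegral_add_left hk,
    lintegral_finsetSum _ fun j _ => (hn 0 _).fun_add (hn 1 _)]
  congr 2
  exact Finset.sum_congr rfl fun j _ => lintegral_add_left (hn 0 _) _

lemma kern_self {q α α' d : ℝ} (hd : 0 ≤ d) (hq : q = α + α') (hα : 0 ≤ α) (hα' : 0 ≤ α') :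
    ∫⁻ Z, kern q d Z ≤ powInt α d * powInt α' d := by
  have h01 : (0 : Fin 2) ≠ 1 := by decide
  refine (lintegral_mono_ae (kern_le hd hq hα hα' h01)).trans_eq ?_
  rw [lintegral_pair h01 (F := fun a b => pw α d a * pw α' d b)
    (((measurable_pw α d).comp measurable_fst).mul ((measurable_pw α' d).comp measurable_snd))]
  simp only [lintegral_mul_const _ (measurable_pw α d)]
  exact lintegral_const_mul _ (measurable_pw α' d)

/-- The truncated Newton kernel is small against the Coulomb majorant, uniformly in the centre. -/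
theorem kern4_bound {d : ℝ} (hd : 0 ≤ d) (hd1 : d ≤ 1) (X : C2) :
    ∫⁻ Y, kern 4 d (X - Y) * ENNReal.ofReal (wmaj R Y)
      ≤ (4 * M + 3 : ℕ) * powInt (5 / 2) d ^ 2 := by
  set J := powInt (5 / 2) d with hJ
  rw [lintegral_kern_wmaj]
  have hn : ∀ {i j : Fin 2} (_ : i ≠ j) (x : R3),
      ∫⁻ Z, kern 4 d Z * ENNReal.ofReal (‖x - Z i‖ ^ (-1 : ℝ)) ≤ 2 * J ^ 2 := fun {i j} hij x => by
    refine (kern_nucleus (α := 3 / 2) (α' := 5 / 2) (γ := 0) (p := 5 / 2) hd (by norm_num)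
      (by norm_num) (by norm_num) one_pos le_rfl (by norm_num) zero_le_one (by norm_num) hij
      (Or.inl rfl)).trans_eq ?_
    rw [neg_zero, rpow_zero, ENNReal.ofReal_one, one_mul, hJ, sq, mul_assoc]
  have hp : ∫⁻ Z, kern 4 d Z * ENNReal.ofReal (‖X 0 - X 1 - (Z 0 - Z 1)‖ ^ (-1 : ℝ))
      ≤ 2 * J ^ 2 := by
    refine (kern_pair_le (α := 3 / 2) (α' := 5 / 2) hd (by norm_num) (by norm_num) (by norm_num)
      _).trans ?_
    refine (lintegral_mono fun b => mul_le_mul' (fibre_bound (γ := 0) (p := 5 / 2) (by norm_num)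
      one_pos le_rfl (by norm_num) zero_le_one (by norm_num) d (Or.inl rfl)) le_rfl).trans_eq ?_
    simp only [neg_zero, rpow_zero, ENNReal.ofReal_one, one_mul]
    rw [lintegral_const_mul _ (measurable_pw _ _), hJ, sq, ← mul_assoc]
    rfl
  have h1 : ∫⁻ Z, kern 4 d Z ≤ J ^ 2 := by
    refine (kern_self (α := 3 / 2) (α' := 5 / 2) hd (by norm_num) (by norm_num) (by norm_num)).trans ?_
    rw [sq]
    exact mul_le_mul' (powInt_mono hd1 (by norm_num)) le_rfl
  refine (add_le_add (add_le_add h1 (Finset.sum_le_sum fun j _ =>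
    add_le_add (hn (show (0 : Fin 2) ≠ 1 by decide) _) (hn (show (1 : Fin 2) ≠ 0 by decide) _))) hp).trans_eq ?_
  rw [Finset.sum_const, Finset.card_univ, Fintype.card_fin, nsmul_eq_mul]
  push_cast
  ring

lemma sing_ge_one (X : C2) : 1 ≤ sing R X := by
  unfold sing
  have : 0 ≤ ∑ j, (‖X 0 - R j‖ ^ (-(2 / 5 : ℝ)) + ‖X 1 - R j‖ ^ (-(2 / 5 : ℝ))) :=
    Finset.sum_nonneg fun j _ => by positivity
  linarith [rpow_nonneg (norm_nonneg (X 0 - X 1)) (-(2 / 5 : ℝ))]

lemma ne_ae (i : Fin 2) (y : R3) : ∀ᵐ X : C2, X i ≠ y :=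
  (Measure.quasiMeasurePreserving_eval (μ := fun _ : Fin 2 => (volume : Measure R3)) i).ae
    (Measure.ae_ne volume y)

lemma apart_ae : ∀ᵐ X : C2, X 0 ≠ X 1 := by
  have hs : MeasurableSet {X : C2 | X 0 = X 1} :=
    measurableSet_eq_fun (measurable_pi_apply 0) (measurable_pi_apply 1)
  rw [ae_iff]
  simp only [ne_eq, not_not]
  rw [← lintegral_indicator_one hs]
  have h := lintegral_pair (show (0 : Fin 2) ≠ 1 by decide)
    (F := fun a b => ({z : R3 × R3 | z.1 = z.2}).indicator (1 : R3 × R3 → ℝ≥0∞) (a, b))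
    ((measurable_one : Measurable (1 : R3 × R3 → ℝ≥0∞)).indicator
      (measurableSet_eq_fun measurable_fst measurable_snd))
  refine h.trans ?_
  have e : ∀ b : R3, ∫⁻ a, ({z : R3 × R3 | z.1 = z.2}).indicator (1 : R3 × R3 → ℝ≥0∞) (a, b) = 0 := by
    intro b
    refine (lintegral_congr_ae ?_).trans lintegral_zero
    filter_upwards [Measure.ae_ne volume b] with a ha
    simp [ha]
  simp [e]

/-- The truncated gradient kernel against the Coulomb majorant. -/
theorem kern5_bound : ∃ C : ℝ, 0 ≤ C ∧ ∀ d, 0 ≤ d → d ≤ 1 → ∀ᵐ X : C2,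
    ∫⁻ Y, kern 5 d (X - Y) * ENNReal.ofReal (wmaj R Y) ≤ ENNReal.ofReal (C * sing R X) := by
  set J := powInt (14 / 5) 1 with hJ
  have hJt : J ≠ ⊤ := (powInt_lt_top (by norm_num) 1).ne
  refine ⟨(4 * M + 5 : ℕ) * (4 * J.toReal ^ 2), by positivity, fun d hd hd1 => ?_⟩
  filter_upwards [ae_all_iff.2 fun j => ne_ae 0 (R j), ae_all_iff.2 fun j => ne_ae 1 (R j),
    apart_ae] with X h0 h1 h01
  rw [lintegral_kern_wmaj]
  set T := ENNReal.ofReal (sing R X)
  have hJd : powInt (14 / 5) d ≤ J := powInt_radius_mono hd1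
  have two : ∀ {y : R3}, ‖y‖ ^ (-(2 / 5 : ℝ)) ≤ sing R X →
      ENNReal.ofReal ((‖y‖ / 2) ^ (-(2 / 5 : ℝ))) ≤ 2 * T := fun {y} hy => by
    rw [div_rpow (norm_nonneg y) zero_le_two]
    refine (ENNReal.ofReal_le_ofReal (q := 2 * sing R X) ?_).trans_eq
      ((ENNReal.ofReal_mul zero_le_two).trans (by simp [T]))
    rw [rpow_neg zero_le_two, div_inv_eq_mul, mul_comm]
    refine mul_le_mul ?_ hy (rpow_nonneg (norm_nonneg _) _) zero_le_two
    calc (2 : ℝ) ^ (2 / 5 : ℝ) ≤ 2 ^ (1 : ℝ) := rpow_le_rpow_of_exponent_le one_le_two (by norm_num)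
      _ = 2 := rpow_one 2
  have hsum : ∀ j, ‖X 0 - R j‖ ^ (-(2 / 5 : ℝ)) ≤ sing R X ∧
      ‖X 1 - R j‖ ^ (-(2 / 5 : ℝ)) ≤ sing R X := fun j => by
    have h := Finset.single_le_sum (f := fun j => ‖X 0 - R j‖ ^ (-(2 / 5 : ℝ))
      + ‖X 1 - R j‖ ^ (-(2 / 5 : ℝ))) (fun j _ => by positivity) (Finset.mem_univ j)
    have := rpow_nonneg (norm_nonneg (X 0 - X 1)) (-(2 / 5 : ℝ))
    have := rpow_nonneg (norm_nonneg (X 0 - R j)) (-(2 / 5 : ℝ))
    have := rpow_nonneg (norm_nonneg (X 1 - R j)) (-(2 / 5 : ℝ))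
    constructor <;> (unfold sing; linarith)
  have hn : ∀ {i j : Fin 2} (_ : i ≠ j) (x : R3), x ≠ 0 → ‖x‖ ^ (-(2 / 5 : ℝ)) ≤ sing R X →
      ∫⁻ Z, kern 5 d Z * ENNReal.ofReal (‖x - Z i‖ ^ (-1 : ℝ)) ≤ 2 * T * (2 * J) * J :=
    fun {i j} hij x hx hxs => by
    refine (kern_nucleus (α := 11 / 5) (α' := 14 / 5) (γ := 2 / 5) (p := 14 / 5) hd (by norm_num)
      (by norm_num) (by norm_num) one_pos (by norm_num) (by norm_num) (by norm_num) (by norm_num)
      hij (Or.inr hx)).trans ?_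
    exact mul_le_mul' (mul_le_mul' (two hxs) (mul_le_mul' le_rfl hJd)) hJd
  set y := X 0 - X 1 with hy
  have hy0 : y ≠ 0 := sub_ne_zero.2 h01
  have hys : ‖y‖ ^ (-(2 / 5 : ℝ)) ≤ sing R X := by
    have : 0 ≤ ∑ j, (‖X 0 - R j‖ ^ (-(2 / 5 : ℝ)) + ‖X 1 - R j‖ ^ (-(2 / 5 : ℝ))) :=
      Finset.sum_nonneg fun j _ => by positivity
    simp only [hy, sing]
    linarith
  have hp : ∫⁻ Z, kern 5 d Z * ENNReal.ofReal (‖y - (Z 0 - Z 1)‖ ^ (-1 : ℝ))
      ≤ 4 * (2 * T * (2 * J) * J) := by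
    refine (kern_pair_le (α := 11 / 5) (α' := 14 / 5) hd (by norm_num) (by norm_num) (by norm_num)
      _).trans ?_
    have hne : ∀ᵐ b : R3, y + b ≠ 0 := by
      filter_upwards [Measure.ae_ne volume (-y)] with b hb h
      exact hb (eq_neg_of_add_eq_zero_right h)
    calc ∫⁻ b, (∫⁻ a, pw (11 / 5) d a * ENNReal.ofReal (‖y + b - a‖ ^ (-1 : ℝ)))
          * pw (14 / 5) d b
        ≤ ∫⁻ b, 4 * J * (pw (14 / 5) d b * ENNReal.ofReal (‖y + b‖ ^ (-(2 / 5 : ℝ)))) := by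
          refine lintegral_mono_ae ?_
          filter_upwards [hne] with b hb
          refine (mul_le_mul' ((fibre_bound (γ := 2 / 5) (p := 14 / 5) (by norm_num) one_pos
            (by norm_num) (by norm_num) (by norm_num) (by norm_num) d (Or.inr hb)).trans
            (mul_le_mul' (ENNReal.ofReal_le_ofReal (show (‖y + b‖ / 2) ^ (-(2 / 5 : ℝ))
              ≤ 2 * ‖y + b‖ ^ (-(2 / 5 : ℝ)) from ?_)) (mul_le_mul' le_rfl hJd))) le_rfl).trans_eq ?_
          · rw [div_rpow (norm_nonneg _) zero_le_two, rpow_neg zero_le_two, div_inv_eq_mul, mul_comm]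
            refine mul_le_mul_of_nonneg_right ?_ (rpow_nonneg (norm_nonneg _) _)
            calc (2 : ℝ) ^ (2 / 5 : ℝ) ≤ 2 ^ (1 : ℝ) :=
                  rpow_le_rpow_of_exponent_le one_le_two (by norm_num)
              _ = 2 := rpow_one 2
          · rw [ENNReal.ofReal_mul zero_le_two]
            simp only [ENNReal.ofReal_ofNat]
            ring
      _ = 4 * J * ∫⁻ b, pw (14 / 5) d b * ENNReal.ofReal (‖-y - b‖ ^ (-(2 / 5 : ℝ))) := by
          rw [lintegral_const_mul' _ _ (by finiteness)]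
          simp only [show ∀ b, ‖-y - b‖ = ‖y + b‖ from fun b => by
            rw [← norm_neg]; congr 1; abel]
      _ ≤ 4 * J * (2 * T * (2 * J)) := by
          refine mul_le_mul' le_rfl ((fibre_bound (γ := 2 / 5) (p := 14 / 5) (by norm_num)
            (by norm_num) (by norm_num) (by norm_num) le_rfl (by norm_num) d
            (Or.inr (neg_ne_zero.2 hy0))).trans ?_)
          rw [norm_neg]
          exact mul_le_mul' (two hys) (mul_le_mul' le_rfl hJd)
      _ = _ := by ring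
  have hs : ∫⁻ Z, kern 5 d Z ≤ 2 * T * (2 * J) * J := by
    refine (kern_self (α := 11 / 5) (α' := 14 / 5) hd (by norm_num) (by norm_num)
      (by norm_num)).trans ?_
    refine (mul_le_mul' ((powInt_mono hd1 (show (11 / 5 : ℝ) ≤ 14 / 5 by norm_num)).trans hJd)
      hJd).trans (mul_le_mul' ?_ le_rfl)
    calc J = 1 * 1 * (1 * J) := by ring
      _ ≤ 2 * T * (2 * J) := by
        refine mul_le_mul' (mul_le_mul' one_le_two ?_) (mul_le_mul' one_le_two le_rfl)
        rw [← ENNReal.ofReal_one]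
        exact ENNReal.ofReal_le_ofReal (sing_ge_one R X)
  refine (add_le_add (add_le_add hs (Finset.sum_le_sum fun j _ => add_le_add
    (hn (show (0 : Fin 2) ≠ 1 by decide) _ (sub_ne_zero.2 (h0 j)) (hsum j).1)
    (hn (show (1 : Fin 2) ≠ 0 by decide) _ (sub_ne_zero.2 (h1 j)) (hsum j).2))) hp).trans ?_
  rw [Finset.sum_const, Finset.card_univ, Fintype.card_fin, nsmul_eq_mul,
    ENNReal.ofReal_mul (by positivity), ENNReal.ofReal_mul (by positivity),
    ENNReal.ofReal_mul (by norm_num), ENNReal.ofReal_pow ENNReal.toReal_nonneg,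
    ENNReal.ofReal_toReal hJt, ENNReal.ofReal_natCast, ENNReal.ofReal_ofNat]
  have h45 : (2 * M + 5 : ℕ) ≤ 4 * M + 5 := by omega
  calc _ = ((2 * M + 5 : ℕ) : ℝ≥0∞) * (4 * J ^ 2) * T := by push_cast; ring
    _ ≤ _ := mul_le_mul' (mul_le_mul' (Nat.cast_le.2 h45) le_rfl) le_rfl

end Vale.Agent.P363.Two
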