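import Vale.Agent.P363.Two.Harnack.Scale
import Vale.Agent.P363.Two.Pins

/-!
Two electrons: Harnack control of nonnegative solutions.
-/

noncomputable section

open MeasureTheory Set Real Function Filter Topology
open scoped ENNReal

namespace Vale.Agent.P363.Two

variable {M : ℕ} {Z : Fin M → ℕ} {R : Fin M → R3} {e : ℝ} {u : C2 → ℝ}

/-- The slowly varying comparison function. -/
def avg (δ : ℝ) (u : C2 → ℝ) (X : C2) : ℝ := (δ ^ 6)⁻¹ * mass u X δ

lemma mass_nonneg (hu : ∀ X, 0 ≤ u X) (X : C2) (r : ℝ) : 0 ≤ mass u X r :=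
  integral_nonneg fun Y => hu Y

lemma avg_nonneg {δ : ℝ} (_hδ : 0 ≤ δ) (hu : ∀ X, 0 ≤ u X) (X : C2) : 0 ≤ avg δ u X :=
  mul_nonneg (by positivity) (mass_nonneg hu X δ)

lemma IsSol.mass_mono (h : IsSol Z R e u) (hu : ∀ X, 0 ≤ u X) {X X' : C2} {r r' : ℝ} (hr' : 0 ≤ r')
    (hs : sset X r ⊆ sset X' r') : mass u X r ≤ mass u X' r' :=
  setIntegral_mono_set (h.integrableOn hr' X') (ae_of_all _ fun Y => hu Y) hs.eventuallyLE

lemma mass_triple {C₀ : ℝ} (hC : 1 ≤ C₀) (hd : ∀ u : C2 → ℝ, IsSol Z R e u → (∀ X, 0 ≤ u X) →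
      ∀ (X : C2) (ρ : ℝ), 0 < ρ → 2 * ρ ≤ 1 → mass u X (√3 * ρ) ≤ C₀ * mass u X ρ)
    (h : IsSol Z R e u) (hu : ∀ X, 0 ≤ u X) (X : C2) {ρ : ℝ} (hρ : 0 < ρ) (hρ1 : ρ ≤ 1 / 4) :
    mass u X (3 * ρ) ≤ C₀ ^ 2 * mass u X ρ := by
  have h3 : √3 ≤ 2 := by rw [sqrt_le_left (by norm_num)]; norm_num
  have h1 := hd u h hu X ρ hρ (by linarith)
  have h2 := hd u h hu X (√3 * ρ) (by positivity) (by nlinarith)
  rw [← mul_assoc, mul_self_sqrt (by norm_num : (0 : ℝ) ≤ 3)] at h2
  exact h2.trans ((mul_le_mul_of_nonneg_left h1 (by linarith)).trans_eq (by ring))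

lemma nsq_add_le (a b : C2) : nsq (a + b) ≤ 2 * nsq a + 2 * nsq b := by
  simp only [nsq, Pi.add_apply]
  nlinarith [pow_le_pow_left₀ (norm_nonneg _) (norm_add_le (a 0) (b 0)) 2,
    pow_le_pow_left₀ (norm_nonneg _) (norm_add_le (a 1) (b 1)) 2,
    sq_nonneg (‖a 0‖ - ‖b 0‖), sq_nonneg (‖a 1‖ - ‖b 1‖)]

lemma sset_shift {X Y : C2} {δ : ℝ} (hXY : dist X Y ≤ δ) : sset Y δ ⊆ sset X (3 * δ) := fun W hW => by
  have hW' : nsq (W - Y) < δ ^ 2 := hW
  have h1 := nsq_le (Y - X)
  have h2 := pow_le_pow_left₀ (norm_nonneg _) (show ‖Y - X‖ ≤ δ by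
    rw [← dist_eq_norm, dist_comm]; exact hXY) 2
  have h3 := nsq_add_le (W - Y) (Y - X)
  rw [sub_add_sub_cancel] at h3
  show nsq (W - X) < (3 * δ) ^ 2
  nlinarith

lemma avg_measurable (h : IsSol Z R e u) (δ : ℝ) : Measurable (avg δ u) := by
  set u' := h.memLp.aestronglyMeasurable.mk u
  have e1 : avg δ u = fun X => (δ ^ 6)⁻¹ * ∫ Y, (sset X δ).indicator u' Y := by
    funext X
    rw [avg, mass, ← integral_indicator (measurableSet_sset X δ)]
    congr 1
    refine integral_congr_ae ?_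
    filter_upwards [h.memLp.aestronglyMeasurable.ae_eq_mk] with Y hY
    by_cases hm : Y ∈ sset X δ
    · rw [indicator_of_mem hm, indicator_of_mem hm, hY]
    · rw [indicator_of_notMem hm, indicator_of_notMem hm]
  have hs : MeasurableSet {p : C2 × C2 | nsq (p.2 - p.1) < δ ^ 2} :=
    measurableSet_lt (continuous_nsq.measurable.comp (measurable_snd.sub measurable_fst))
      measurable_const
  have hm : StronglyMeasurable (uncurry fun X Y => (sset X δ).indicator u' Y) :=
    ((h.memLp.aestronglyMeasurable.stronglyMeasurable_mk.comp_measurable measurable_snd).indicator hs)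
  rw [e1]
  exact (hm.integral_prod_right (ν := volume)).measurable.const_mul _

lemma dichotomy_of_step {A : C2 → ℝ} {δ D : ℝ} (hδ : 0 < δ) (h0 : ∀ X, 0 ≤ A X)
    (hs : ∀ X Y, dist X Y ≤ δ → A Y ≤ D * A X) : (∀ X, A X = 0) ∨ ∀ X, 0 < A X := by
  by_cases hz : ∃ X, A X = 0
  · obtain ⟨X, hX⟩ := hz
    refine Or.inl fun Y => ?_
    obtain ⟨n, hn⟩ := exists_nat_gt (dist X Y / δ)
    have hn0 : (0 : ℝ) < n := lt_of_le_of_lt (by positivity) hn
    have key : ∀ k : ℕ, A (X + ((k : ℝ) / n) • (Y - X)) = 0 := by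
      intro k
      induction k with
      | zero => simpa using hX
      | succ k ih =>
        refine le_antisymm ((hs _ _ ?_).trans_eq (by rw [ih, mul_zero])) (h0 _)
        rw [dist_add_left, dist_eq_norm, ← sub_smul, norm_smul, Real.norm_eq_abs]
        have e1 : (k : ℝ) / n - ((k + 1 : ℕ) : ℝ) / n = -(1 / n) := by push_cast; ring
        rw [e1, abs_neg, abs_of_nonneg (by positivity), div_mul_eq_mul_div, one_mul,
          div_le_iff₀ hn0, ← dist_eq_norm, dist_comm]
        rw [div_lt_iff₀ hδ] at hn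
        linarith
    simpa [hn0.ne'] using key n
  · exact Or.inr fun X => lt_of_le_of_ne (h0 X) fun h => hz ⟨X, h.symm⟩

lemma sq_lintegral_le {a V : C2 → ℝ≥0∞} (ha : Measurable a) (hV : AEMeasurable V) :
    (∫⁻ Y, a Y * V Y) ^ 2 ≤ (∫⁻ Y, a Y) * ∫⁻ Y, a Y * V Y ^ 2 := by
  have hV' : AEMeasurable V (volume.withDensity a) := hV.mono_ac (withDensity_absolutelyContinuous _ _)
  have h := ENNReal.lintegral_mul_le_Lp_mul_Lq (volume.withDensity a) Real.HolderConjugate.two_two
    hV' (aemeasurable_const (b := (1 : ℝ≥0∞)))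
  simp only [Pi.mul_apply, mul_one, ENNReal.rpow_two, one_pow, lintegral_one, one_div] at h
  have h2 := pow_le_pow_left' h 2
  rw [mul_pow, ← ENNReal.rpow_natCast _ 2, ← ENNReal.rpow_natCast (_ ^ (2⁻¹ : ℝ)) 2,
    ← ENNReal.rpow_natCast (_ ^ (2⁻¹ : ℝ)) 2, ← ENNReal.rpow_mul, ← ENNReal.rpow_mul] at h2
  norm_num at h2
  rw [lintegral_withDensity_eq_lintegral_mul₀ ha.aemeasurable hV,
    lintegral_withDensity_eq_lintegral_mul₀ ha.aemeasurable (hV.pow_const _), mul_comm] at h2
  simpa [mul_comm] using h2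

lemma kern_comm (q d : ℝ) (X Y : C2) : kern q d (X - Y) = kern q d (Y - X) := by
  have hs : nsq (X - Y) = nsq (Y - X) := by rw [← nsq_neg, neg_sub]
  simp [kern, indicator_apply, hs]

/-- The Schur test: a subfixed point of the small kernel vanishes. -/
lemma schur_zero {κ θ : ℝ≥0∞} {d : ℝ} (R : Fin M → R3) {V : C2 → ℝ≥0∞} (hVm : AEMeasurable V)
    (hθ : ∀ X, ∫⁻ Y, kern 4 d (X - Y) * ENNReal.ofReal (wmaj R Y) ≤ θ)
    (hV : ∀ᵐ X, V X ≤ κ * ∫⁻ Y, kern 4 d (X - Y) * ENNReal.ofReal (wmaj R Y) * V Y)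
    (hfin : ∫⁻ X, ENNReal.ofReal (wmaj R X) * V X ^ 2 ≠ ⊤) (hsmall : κ * θ ≤ 2⁻¹) :
    ∀ᵐ X, V X = 0 := by
  set w : C2 → ℝ≥0∞ := fun Y => ENNReal.ofReal (wmaj R Y) with hw
  have hwm : Measurable w := (measurable_wmaj R).ennreal_ofReal
  set S := ∫⁻ X, w X * V X ^ 2 with hS
  have ha : ∀ X, Measurable fun Y => kern 4 d (X - Y) * w Y := fun X =>
    ((measurable_kern 4 d).comp (measurable_const.sub measurable_id)).mul hwm
  have step : S ≤ ∫⁻ X, ∫⁻ Y, κ ^ 2 * θ * (w X * (kern 4 d (X - Y) * w Y * V Y ^ 2)) := by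
    refine lintegral_mono_ae ?_
    filter_upwards [hV] with X hX
    calc w X * V X ^ 2 ≤ w X * (κ * ∫⁻ Y, kern 4 d (X - Y) * w Y * V Y) ^ 2 :=
          mul_le_mul' le_rfl (pow_le_pow_left' hX 2)
      _ ≤ w X * (κ ^ 2 * (θ * ∫⁻ Y, kern 4 d (X - Y) * w Y * V Y ^ 2)) := by
          rw [mul_pow]
          exact mul_le_mul' le_rfl (mul_le_mul' le_rfl
            ((sq_lintegral_le (ha X) hVm).trans (mul_le_mul' (hθ X) le_rfl)))
      _ = κ ^ 2 * θ * w X * ∫⁻ Y, kern 4 d (X - Y) * w Y * V Y ^ 2 := by ring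
      _ = ∫⁻ Y, κ ^ 2 * θ * w X * (kern 4 d (X - Y) * w Y * V Y ^ 2) :=
          (lintegral_const_mul'' _ ((ha X).aemeasurable.mul (hVm.pow_const _))).symm
      _ = _ := lintegral_congr fun Y => by ring
  have hm : AEMeasurable (uncurry fun X Y =>
      κ ^ 2 * θ * (w X * (kern 4 d (X - Y) * w Y * V Y ^ 2))) ((volume : Measure C2).prod volume) :=
    ((hwm.comp measurable_fst).aemeasurable.mul
      ((((measurable_kern 4 d).comp (measurable_fst.sub measurable_snd)).mul
        (hwm.comp measurable_snd)).aemeasurable.mul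
          ((hVm.comp_quasiMeasurePreserving Measure.quasiMeasurePreserving_snd).pow_const 2))).const_mul _
  rw [lintegral_lintegral_swap hm] at step
  have bound : S ≤ (κ * θ) ^ 2 * S := by
    refine step.trans ?_
    have hwV : AEMeasurable fun X => w X * V X ^ 2 := hwm.aemeasurable.mul (hVm.pow_const _)
    rw [hS, ← lintegral_const_mul'' _ hwV]
    refine lintegral_mono fun Y => ?_
    calc ∫⁻ X, κ ^ 2 * θ * (w X * (kern 4 d (X - Y) * w Y * V Y ^ 2))
        = ∫⁻ X, κ ^ 2 * θ * (w Y * V Y ^ 2) * (kern 4 d (Y - X) * w X) :=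
          lintegral_congr fun X => by rw [kern_comm]; ring
      _ = κ ^ 2 * θ * (w Y * V Y ^ 2) * ∫⁻ X, kern 4 d (Y - X) * w X :=
          lintegral_const_mul _ (ha Y)
      _ ≤ κ ^ 2 * θ * (w Y * V Y ^ 2) * θ := mul_le_mul' le_rfl (hθ Y)
      _ = _ := by ring
  have hS0 : S = 0 := by
    by_contra hne
    have h2 : S ≤ 2⁻¹ * S := bound.trans (mul_le_mul' (by
      calc (κ * θ) ^ 2 ≤ (2⁻¹ : ℝ≥0∞) ^ 2 := pow_le_pow_left' hsmall 2
        _ ≤ 2⁻¹ := by rw [sq]; exact mul_le_of_le_one_right' (by norm_num)) le_rfl)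
    have h3 := ENNReal.mul_lt_mul_left hne hfin (show (2⁻¹ : ℝ≥0∞) < 1 by norm_num)
    rw [one_mul] at h3
    exact absurd (lt_of_le_of_lt h2 h3) (lt_irrefl _)
  filter_upwards [(lintegral_eq_zero_iff' (hwm.aemeasurable.mul (hVm.pow_const _))).1 hS0] with X hX
  have hwX : w X ≠ 0 := by
    simp only [hw, ne_eq, ENNReal.ofReal_eq_zero, not_le]
    linarith [one_le_wmaj R X]
  simpa [hwX] using hX

lemma exists_small {θ : ℝ} (hθ : 0 < θ) (M : ℕ) :
    ∃ δ : ℝ, 0 < δ ∧ δ ≤ 1 / 4 ∧ (4 * M + 3 : ℕ) * powInt (5 / 2) δ ^ 2 ≤ ENNReal.ofReal θ := by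
  set δ : ℕ → ℝ := fun n => 1 / 4 / (n + 1) with hδ
  have hpos : ∀ n, 0 < δ n := fun n => by simp only [hδ]; positivity
  have hle : ∀ n, δ n ≤ 1 / 4 := fun n => div_le_self (by norm_num) (by simp)
  have hsub : ∀ n, Metric.ball (0 : R3) (δ n) ⊆ Metric.ball 0 1 := fun n =>
    Metric.ball_subset_ball ((hle n).trans (by norm_num))
  have hvol : Tendsto (fun n => (volume.restrict (Metric.ball (0 : R3) 1)) (Metric.ball 0 (δ n)))
      atTop (𝓝 0) := by
    have e1 : (fun n => (volume.restrict (Metric.ball (0 : R3) 1)) (Metric.ball 0 (δ n)))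
        = fun n => ENNReal.ofReal (δ n ^ 3) * volume (Metric.ball (0 : R3) 1) := by
      funext n
      rw [Measure.restrict_apply measurableSet_ball, inter_eq_left.2 (hsub n),
        Measure.addHaar_ball_of_pos volume _ (hpos n), finrank_euclideanSpace_fin]
    rw [e1]
    have h1 : Tendsto (fun n => δ n ^ 3) atTop (𝓝 0) := by
      have := ((tendsto_one_div_add_atTop_nhds_zero_nat (𝕜 := ℝ)).const_mul (1 / 4)).pow 3
      simpa [hδ, div_eq_mul_inv] using this
    have := ENNReal.Tendsto.mul_const (ENNReal.tendsto_ofReal h1) (b := volume (Metric.ball (0 : R3) 1))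
      (Or.inr measure_ball_lt_top.ne)
    simpa using this
  have hJ : Tendsto (fun n => powInt (5 / 2) (δ n)) atTop (𝓝 0) := by
    have h := tendsto_setLIntegral_zero (μ := volume.restrict (Metric.ball (0 : R3) 1))
      (f := fun a : R3 => ENNReal.ofReal (‖a‖ ^ (-(5 / 2 : ℝ)))) ?_ hvol
    · refine h.congr fun n => ?_
      rw [Measure.restrict_restrict measurableSet_ball, inter_eq_left.2 (hsub n), powInt,
        ← lintegral_indicator measurableSet_ball]
      rfl
    · rw [← lintegral_indicator measurableSet_ball]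
      exact (powInt_lt_top (by norm_num) 1).ne
  have hlim : Tendsto (fun n => ((4 * M + 3 : ℕ) : ℝ≥0∞) * powInt (5 / 2) (δ n) ^ 2) atTop (𝓝 0) := by
    have h := ENNReal.Tendsto.const_mul (a := ((4 * M + 3 : ℕ) : ℝ≥0∞))
      (ENNReal.Tendsto.pow (n := 2) hJ) (Or.inr (ENNReal.natCast_ne_top _))
    rwa [zero_pow two_ne_zero, mul_zero] at h
  obtain ⟨n, hn⟩ := (hlim.eventually (ge_mem_nhds (ENNReal.ofReal_pos.2 hθ))).exists
  exact ⟨δ n, hpos n, hle n, hn⟩

lemma exists_deriv_bound : ∃ P, 0 < P ∧ ∀ s, 0 ≤ s → |deriv prof s| ≤ P := by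
  obtain ⟨L, hL⟩ := (isCompact_Icc (a := (0 : ℝ)) (b := 1)).exists_bound_of_continuousOn
    (contDiff_deriv_prof (n := 0)).continuous.continuousOn
  refine ⟨max L 1, lt_max_of_lt_right one_pos, fun s hs => ?_⟩
  rcases le_or_gt s 1 with h | h
  · exact (hL s ⟨hs, h⟩).trans (le_max_left _ _)
  · have : prof =ᶠ[𝓝 s] fun _ => 0 := by
      filter_upwards [lt_mem_nhds h] with y hy using prof_zero hy.le
    rw [this.deriv_eq]
    simp

lemma abs_coord_le (W : C2) (i : Fin 2) (k : Fin 3) : |W i k| ≤ √(nsq W) := by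
  refine le_sqrt_of_sq_le ?_
  rw [sq_abs, ← sum_sq W]
  exact (Finset.single_le_sum (f := fun k => W i k ^ 2) (fun k _ => sq_nonneg _)
    (Finset.mem_univ k)).trans (Finset.single_le_sum (f := fun i => ∑ k, W i k ^ 2)
      (fun i _ => Finset.sum_nonneg fun k _ => sq_nonneg _) (Finset.mem_univ i))

lemma abs_mul_nsq_zero {φ : ℝ → ℝ} {L : ℝ} (hL : ∀ s, 0 ≤ s → |φ s| ≤ L)
    (hz : ∀ s, 1 < s → φ s = 0) {t : ℝ} (ht : 0 < t) (W : C2) (i : Fin 2) (k : Fin 3) :
    |W i k * φ (nsq W / t ^ 2)| ≤ t * L := by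
  rcases le_or_gt (nsq W) (t ^ 2) with h | h
  · rw [abs_mul]
    refine mul_le_mul ((abs_coord_le W i k).trans ?_) (hL _ (div_nonneg (nsq_nonneg W) (sq_nonneg t)))
      (abs_nonneg _) ht.le
    rw [sqrt_le_left ht.le]; exact h
  · rw [hz _ ((one_lt_div (by positivity)).2 h), mul_zero, abs_zero]
    exact mul_nonneg ht.le ((abs_nonneg _).trans (hL 0 le_rfl))

/-- The Newton part of the scale identity, against the solution. -/
lemma kern_sol_bound {q δ D Mu : ℝ} {A : C2 → ℝ} (hδ : 0 ≤ δ) {X : C2} {S : ℝ≥0∞}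
    (hS : ∫⁻ Y, kern q δ (X - Y) * ENNReal.ofReal (wmaj R Y) ≤ S) (hMu : 0 ≤ Mu)
    (hstep : ∀ Y, dist X Y ≤ δ → A Y ≤ D * A X) (hle : ∀ᵐ Y, |u Y| ≤ Mu * A Y) :
    ∫⁻ Y, kern q δ (X - Y) * ENNReal.ofReal (wmaj R Y * |u Y|)
      ≤ ENNReal.ofReal (Mu * (D * A X)) * S := by
  refine le_trans ?_ (mul_le_mul' le_rfl hS)
  have hmk : Measurable fun Y => kern q δ (X - Y) * ENNReal.ofReal (wmaj R Y) :=
    ((measurable_kern q δ).comp (measurable_const.sub measurable_id)).mul
      (measurable_wmaj R).ennreal_ofReal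
  rw [← lintegral_const_mul _ hmk]
  refine lintegral_mono_ae ?_
  filter_upwards [hle] with Y hY
  by_cases hm : nsq (X - Y) < δ ^ 2
  · have hd : dist X Y ≤ δ := by
      rw [dist_eq_norm]
      exact le_of_pow_le_pow_left₀ two_ne_zero hδ ((norm_sq_le_nsq _).trans hm.le)
    have h1 : |u Y| ≤ Mu * (D * A X) := hY.trans (mul_le_mul_of_nonneg_left (hstep Y hd) hMu)
    rw [ENNReal.ofReal_mul (zero_le_one.trans (one_le_wmaj R Y))]
    calc kern q δ (X - Y) * (ENNReal.ofReal (wmaj R Y) * ENNReal.ofReal |u Y|)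
        ≤ kern q δ (X - Y) * (ENNReal.ofReal (wmaj R Y) * ENNReal.ofReal (Mu * (D * A X))) :=
          mul_le_mul' le_rfl (mul_le_mul' le_rfl (ENNReal.ofReal_le_ofReal h1))
      _ = _ := by ring
  · rw [kern, indicator_of_notMem (show X - Y ∉ {Z : C2 | nsq Z < δ ^ 2} from hm)]
    simp

lemma integrable_shift_mul {f : C2 → ℝ} (hf : Continuous f) (hc : HasCompactSupport f)
    (hu : LocallyIntegrable u) (X : C2) : Integrable fun Y => f (X - Y) * u Y := by
  have := ((hc.convolutionExists_left (ContinuousLinearMap.lsmul ℝ ℝ) hf hu X).integrable_swap)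
  simpa using this

lemma mass_bound_of_le (h : IsSol Z R e u) (hu : ∀ X, 0 ≤ u X) {f : C2 → ℝ} {L r : ℝ} (hr : 0 ≤ r) (hL : ∀ W, |f W| ≤ L)
    (hz : ∀ W, r ^ 2 ≤ nsq W → f W = 0) (X : C2) :
    |∫ Y, f (X - Y) * u Y| ≤ L * mass u X r := by
  refine abs_integral_le_integral_abs.trans ?_
  rw [mass, ← integral_const_mul, ← integral_indicator (measurableSet_sset X r)]
  refine integral_mono_of_nonneg (ae_of_all _ fun Y => abs_nonneg _) ?_ (ae_of_all _ fun Y => ?_)
  · rw [integrable_indicator_iff (measurableSet_sset X r)]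
    exact (h.integrableOn hr X).const_mul L
  dsimp only
  by_cases hY : Y ∈ sset X r
  · rw [indicator_of_mem hY, abs_mul, abs_of_nonneg (hu Y)]
    exact mul_le_mul_of_nonneg_right (hL _) (hu Y)
  · have hs : nsq (X - Y) = nsq (Y - X) := by rw [← nsq_neg, neg_sub]
    rw [indicator_of_notMem hY, hz (X - Y) (hs ▸ not_lt.1 hY), zero_mul, abs_zero]

/-- The Harnack control. -/
theorem harnack : HarnackPin := by
  intro M Z R e
  obtain ⟨C₀, hC₀, hdbl⟩ := doubling Z R e
  obtain ⟨P, hP0, hP⟩ := exists_prof_bound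
  obtain ⟨P', hP'0, hP'⟩ := exists_deriv_bound
  obtain ⟨C₅, hC₅, hk5⟩ := kern5_bound R
  set D := C₀ ^ 2 with hD
  have hD1 : 1 ≤ D := one_le_pow₀ hC₀
  have hD0 : 0 < D := lt_of_lt_of_le one_pos hD1
  set p₀ := prof (1 / 4) with hp₀
  have hp₀0 : 0 < p₀ := div_pos (expNegInvGlue.pos_of_pos (by norm_num)) integral_profRaw_pos
  have hanti : ∀ s, s ≤ 1 / 4 → p₀ ≤ prof s := fun s hs =>
    div_le_div_of_nonneg_right (expNegInvGlue.monotone (by linarith)) integral_profRaw_pos.le
  set κ := 2 * bigK Z e * P with hκ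
  have hκ0 : 0 < κ := by have := bigK_pos Z e; positivity
  set θ := min (1 / (2 * κ * D)) (p₀ / (4 * κ * P * D ^ 2)) with hθ
  have hθ0 : 0 < θ := lt_min (by positivity) (by positivity)
  have hθa : κ * D * θ ≤ 1 / 2 := by
    have := mul_le_mul_of_nonneg_left (min_le_left (1 / (2 * κ * D)) (p₀ / (4 * κ * P * D ^ 2)))
      (show 0 ≤ κ * D by positivity)
    refine this.trans_eq ?_
    field_simp
  have hθb : κ * (2 * P * D) * θ ≤ p₀ / (2 * D) := by
    have := mul_le_mul_of_nonneg_left (min_le_right (1 / (2 * κ * D)) (p₀ / (4 * κ * P * D ^ 2)))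
      (show 0 ≤ κ * (2 * P * D) by positivity)
    refine this.trans_eq ?_
    field_simp
    ring
  obtain ⟨δ, hδ0, hδ4, hδθ⟩ := exists_small hθ0 M
  have hδ1 : δ ≤ 1 := hδ4.trans (by norm_num)
  have hk4 : ∀ X, ∫⁻ Y, kern 4 δ (X - Y) * ENNReal.ofReal (wmaj R Y) ≤ ENNReal.ofReal θ := fun X =>
    (kern4_bound R hδ0.le hδ1 X).trans hδθ
  set C := max (max (2 * P) (2 * D / p₀)) (max D (2 * P' / δ + κ * (2 * P * D) * C₅)) with hC
  have hC1 : 2 * P ≤ C := le_max_of_le_left (le_max_left _ _)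
  have hC2 : 2 * D / p₀ ≤ C := le_max_of_le_left (le_max_right _ _)
  have hC3 : D ≤ C := le_max_of_le_right (le_max_left _ _)
  have hC4 : 2 * P' / δ + κ * (2 * P * D) * C₅ ≤ C := le_max_of_le_right (le_max_right _ _)
  refine ⟨δ, C, hδ0, hδ1, lt_of_lt_of_le hD0 hC3, fun u h hu => ⟨avg δ u, ?_⟩⟩
  set A := avg δ u with hA
  have hA0 : ∀ X, 0 ≤ A X := avg_nonneg hδ0.le hu
  have hAm : Measurable A := avg_measurable h δ
  have hloc := h.locallyIntegrable
  have hstep : ∀ X Y, dist X Y ≤ δ → A Y ≤ D * A X := by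
    intro X Y hXY
    have h1 : mass u Y δ ≤ D * mass u X δ :=
      (h.mass_mono hu (by positivity) (sset_shift hXY)).trans
        (mass_triple hC₀ hdbl h hu X hδ0 hδ4)
    calc A Y ≤ (δ ^ 6)⁻¹ * (D * mass u X δ) := mul_le_mul_of_nonneg_left h1 (by positivity)
      _ = D * A X := by simp only [hA, avg]; ring
  -- the coarse scale
  have hup0 : ∀ X, moll δ u X ≤ P * A X := by
    intro X
    refine (le_abs_self _).trans ((mass_bound_of_le h hu hδ0.le (f := rho δ) (L := (δ ^ 6)⁻¹ * P) (fun W => ?_)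
      (fun W => rho_zero hδ0) X).trans_eq (by simp only [hA, avg]; ring))
    rw [abs_of_nonneg (rho_nonneg hδ0.le W)]
    exact mul_le_mul_of_nonneg_left (hP _ (div_nonneg (nsq_nonneg _) (sq_nonneg δ))).1 (by positivity)
  have hlo0 : ∀ X, p₀ / D * A X ≤ moll δ u X := by
    intro X
    have h1 : mass u X δ ≤ D * mass u X (δ / 2) := by
      have := mass_triple hC₀ hdbl h hu X (show 0 < δ / 3 by positivity) (by linarith)
      rw [mul_div_cancel₀ δ (by norm_num : (3 : ℝ) ≠ 0)] at this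
      exact this.trans (mul_le_mul_of_nonneg_left
        (h.mass_mono hu (by positivity) (sset_subset (by positivity) (by linarith))) hD0.le)
    have h2 : (δ ^ 6)⁻¹ * p₀ * mass u X (δ / 2) ≤ moll δ u X := by
      rw [mass, ← integral_const_mul, ← integral_indicator (measurableSet_sset X _)]
      refine integral_mono_of_nonneg (ae_of_all _ fun Y => indicator_nonneg (fun Y _ =>
        mul_nonneg (by positivity) (hu Y)) Y) (integrable_shift_mul
          (contDiff_rho (n := 0) δ).continuous (hasCompactSupport_rho hδ0) hloc X)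
          (ae_of_all _ fun Y => ?_)
      dsimp only
      by_cases hY : Y ∈ sset X (δ / 2)
      · rw [indicator_of_mem hY]
        refine mul_le_mul_of_nonneg_right (mul_le_mul_of_nonneg_left (hanti _ ?_) (by positivity)) (hu Y)
        have hY' : nsq (Y - X) < (δ / 2) ^ 2 := hY
        rw [← nsq_neg, neg_sub, div_le_iff₀ (by positivity)]
        linarith [show (δ / 2) ^ 2 = 1 / 4 * δ ^ 2 by ring]
      · rw [indicator_of_notMem hY]
        exact mul_nonneg (rho_nonneg hδ0.le _) (hu Y)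
    refine le_trans ?_ h2
    calc p₀ / D * A X ≤ p₀ / D * ((δ ^ 6)⁻¹ * (D * mass u X (δ / 2))) :=
          mul_le_mul_of_nonneg_left (mul_le_mul_of_nonneg_left h1 (by positivity)) (by positivity)
      _ = _ := by field_simp
  -- the scale identity
  have hrho : ∀ t, 0 < t → t ≤ δ → ∀ X, ENNReal.ofReal |moll δ u X - moll t u X|
      ≤ ENNReal.ofReal κ * ∫⁻ Y, kern 4 δ (X - Y) * ENNReal.ofReal (wmaj R Y * |u Y|) := by
    intro t ht htd X
    have := scale_bound h (Φ := pot) (Ψ := rho) (q := 4) hP0.le (by norm_num)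
      (fun s _ => contDiff_pot s) (fun s hs W => pot_zero hs) (fun s hs W => ?_)
      (fun s hs W => hasDerivAt_rho hs W) continuous_lap_pot_uncurry ?_
      (fun s hs X => integrable_shift_mul (contDiff_rho (n := 0) s).continuous
        (hasCompactSupport_rho hs) hloc X) ht htd X
    · simpa [moll, hκ] using this
    · rw [pot, abs_mul, abs_of_nonneg (by positivity), abs_of_nonneg (gProf_nonneg _), mul_comm P]
      exact mul_le_mul_of_nonneg_left (hP _ (div_nonneg (nsq_nonneg _) (sq_nonneg s))).2 (by positivity)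
    · exact (((continuous_fst.pow 5).continuousOn).inv₀ fun p hp => pow_ne_zero 5 (ne_of_gt hp.1)).mul
        ((contDiff_gProf (n := 0)).continuous.comp_continuousOn
          ((continuous_nsq.comp continuous_snd).continuousOn.div (by fun_prop)
            fun p hp => pow_ne_zero 2 (ne_of_gt hp.1)))
  -- the upper bound
  set V : C2 → ℝ≥0∞ := fun X => ENNReal.ofReal (u X - 2 * P * A X) with hV
  have hum : AEMeasurable u := h.memLp.aestronglyMeasurable.aemeasurable
  have hVm : AEMeasurable V := (hum.sub (hAm.aemeasurable.const_mul _)).ennreal_ofReal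
  have hVle : ∀ᵐ X, V X ≤ ENNReal.ofReal κ *
      ∫⁻ Y, kern 4 δ (X - Y) * ENNReal.ofReal (wmaj R Y) * V Y := by
    filter_upwards [moll_tendsto hloc hδ0] with X hX
    set T := ∫⁻ Y, kern 4 δ (X - Y) * ENNReal.ofReal (wmaj R Y * |u Y|)
    set TV := ∫⁻ Y, kern 4 δ (X - Y) * ENNReal.ofReal (wmaj R Y) * V Y
    have h1 : ENNReal.ofReal (u X) ≤ ENNReal.ofReal (P * A X) + ENNReal.ofReal κ * T := by
      refine le_of_tendsto' (ENNReal.tendsto_ofReal hX) fun n => ?_
      have ht : 0 < δ / (n + 1 : ℝ) := by positivity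
      have htd : δ / (n + 1 : ℝ) ≤ δ := div_le_self hδ0.le (by simp)
      calc ENNReal.ofReal (moll (δ / (n + 1)) u X)
          ≤ ENNReal.ofReal (P * A X + |moll δ u X - moll (δ / (n + 1)) u X|) :=
            ENNReal.ofReal_le_ofReal (by
              linarith [hup0 X, neg_abs_le (moll δ u X - moll (δ / (n + 1)) u X)])
        _ ≤ _ := ENNReal.ofReal_add_le.trans (add_le_add le_rfl (hrho _ ht htd X))
    have hmk : Measurable fun Y => kern 4 δ (X - Y) * ENNReal.ofReal (wmaj R Y) :=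
      ((measurable_kern 4 δ).comp (measurable_const.sub measurable_id)).mul
        (measurable_wmaj R).ennreal_ofReal
    have h2 : T ≤ TV + ENNReal.ofReal (2 * P * (D * A X) * θ) := by
      calc T ≤ ∫⁻ Y, (kern 4 δ (X - Y) * ENNReal.ofReal (wmaj R Y) * V Y
            + ENNReal.ofReal (2 * P * (D * A X)) *
              (kern 4 δ (X - Y) * ENNReal.ofReal (wmaj R Y))) := by
            refine lintegral_mono fun Y => ?_
            by_cases hm : nsq (X - Y) < δ ^ 2
            · have hd : dist X Y ≤ δ := by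
                rw [dist_eq_norm]
                exact le_of_pow_le_pow_left₀ two_ne_zero hδ0.le ((norm_sq_le_nsq _).trans hm.le)
              have huY : ENNReal.ofReal |u Y| ≤ V Y + ENNReal.ofReal (2 * P * (D * A X)) := by
                refine (ENNReal.ofReal_le_ofReal ?_).trans ENNReal.ofReal_add_le
                rw [abs_of_nonneg (hu Y)]
                linarith [mul_le_mul_of_nonneg_left (hstep X Y hd) (show 0 ≤ 2 * P by positivity)]
              rw [ENNReal.ofReal_mul (zero_le_one.trans (one_le_wmaj R Y))]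
              refine (mul_le_mul' le_rfl (mul_le_mul' le_rfl huY)).trans_eq ?_
              ring
            · rw [kern, indicator_of_notMem (show X - Y ∉ {Z : C2 | nsq Z < δ ^ 2} from hm)]
              simp
        _ = TV + ENNReal.ofReal (2 * P * (D * A X)) *
              ∫⁻ Y, kern 4 δ (X - Y) * ENNReal.ofReal (wmaj R Y) := by
            have hkV : AEMeasurable fun Y =>
                kern 4 δ (X - Y) * ENNReal.ofReal (wmaj R Y) * V Y := hmk.aemeasurable.mul hVm
            rw [lintegral_add_left' hkV, lintegral_const_mul _ hmk]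
        _ ≤ _ := by
            refine add_le_add le_rfl ((mul_le_mul' le_rfl (hk4 X)).trans_eq ?_)
            rw [← ENNReal.ofReal_mul (by have := hA0 X; positivity)]
    have h3 : ENNReal.ofReal (u X) ≤ ENNReal.ofReal (2 * P * A X) + ENNReal.ofReal κ * TV := by
      refine (h1.trans (add_le_add le_rfl (mul_le_mul' le_rfl h2))).trans ?_
      rw [mul_add, ← ENNReal.ofReal_mul hκ0.le, ← add_assoc, add_right_comm,
        ← ENNReal.ofReal_add (by have := hA0 X; positivity) (by have := hA0 X; positivity)]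
      refine add_le_add (ENNReal.ofReal_le_ofReal ?_) le_rfl
      nlinarith [mul_le_mul_of_nonneg_right hθa (show 0 ≤ 2 * (P * A X) by have := hA0 X; positivity)]
    show ENNReal.ofReal (u X - 2 * P * A X) ≤ _
    rw [ENNReal.ofReal_sub _ (by have := hA0 X; positivity)]
    exact tsub_le_iff_left.2 h3
  have hfin : ∫⁻ X, ENNReal.ofReal (wmaj R X) * V X ^ 2 ≠ ⊤ := by
    refine ne_of_lt (lt_of_le_of_lt (lintegral_mono fun X => ?_)
      (hasFiniteIntegral_iff_ofReal (ae_of_all _ fun X => mul_nonneg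
        (zero_le_one.trans (one_le_wmaj R X)) (sq_nonneg (u X))) |>.1 h.weighted.hasFiniteIntegral))
    rw [ENNReal.ofReal_mul (zero_le_one.trans (one_le_wmaj R X)), ENNReal.ofReal_pow (hu X)]
    refine mul_le_mul' le_rfl (pow_le_pow_left' (ENNReal.ofReal_le_ofReal ?_) 2)
    linarith [mul_nonneg (show 0 ≤ 2 * P by positivity) (hA0 X)]
  have hsmall : ENNReal.ofReal κ * ENNReal.ofReal θ ≤ 2⁻¹ := by
    rw [← ENNReal.ofReal_mul hκ0.le, show (2⁻¹ : ℝ≥0∞) = ENNReal.ofReal (1 / 2) by simp]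
    refine ENNReal.ofReal_le_ofReal (le_trans ?_ hθa)
    exact mul_le_mul_of_nonneg_right (le_mul_of_one_le_right hκ0.le hD1) hθ0.le
  have hupper : ∀ᵐ X, u X ≤ 2 * P * A X := by
    filter_upwards [schur_zero R hVm hk4 hVle hfin hsmall] with X hX
    simp only [hV, ENNReal.ofReal_eq_zero] at hX
    linarith
  have habs : ∀ᵐ X, |u X| ≤ 2 * P * A X := by
    filter_upwards [hupper] with X hX
    rwa [abs_of_nonneg (hu X)]
  -- all scales
  have hdiff : ∀ t, 0 < t → t ≤ δ → ∀ X,
      |moll δ u X - moll t u X| ≤ κ * (2 * P * D) * θ * A X := by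
    intro t ht htd X
    have h1 := (hrho t ht htd X).trans (mul_le_mul' le_rfl (kern_sol_bound hδ0.le (hk4 X)
      (by positivity) (hstep X) habs))
    rw [← ENNReal.ofReal_mul (by have := hA0 X; positivity), ← ENNReal.ofReal_mul hκ0.le] at h1
    exact ((ENNReal.ofReal_le_ofReal_iff (by have := hA0 X; positivity)).1 h1).trans_eq (by ring)
  have hmollU : ∀ t, 0 < t → t ≤ δ → ∀ X, moll t u X ≤ C * A X := by
    intro t ht htd X
    have h1 := (abs_le.1 (hdiff t ht htd X)).1
    have h2 : κ * (2 * P * D) * θ * A X ≤ P * A X :=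
      mul_le_mul_of_nonneg_right (by nlinarith [mul_le_mul_of_nonneg_left hθa (show 0 ≤ 2 * P by positivity)])
        (hA0 X)
    linarith [hup0 X, mul_le_mul_of_nonneg_right hC1 (hA0 X)]
  have hmollL : ∀ t, 0 < t → t ≤ δ → ∀ X, A X ≤ C * moll t u X := by
    intro t ht htd X
    have h1 := (abs_le.1 (hdiff t ht htd X)).2
    have h2 := mul_le_mul_of_nonneg_right hθb (hA0 X)
    have h3 : p₀ / (2 * D) * A X ≤ moll t u X := by
      have : p₀ / D = p₀ / (2 * D) + p₀ / (2 * D) := by ring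
      have h4 := hlo0 X
      rw [this, add_mul] at h4
      linarith
    calc A X = 2 * D / p₀ * (p₀ / (2 * D) * A X) := by field_simp
      _ ≤ 2 * D / p₀ * moll t u X := mul_le_mul_of_nonneg_left h3 (by positivity)
      _ ≤ C * moll t u X := mul_le_mul_of_nonneg_right hC2 (moll_nonneg ht.le hu X)
  refine
    { measurable := hAm
      nonneg := hA0
      dichotomy := dichotomy_of_step hδ0 hA0 hstep
      step := fun X Y hXY => (hstep X Y hXY).trans (mul_le_mul_of_nonneg_right hC3 (hA0 X))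
      upper := ?_
      lower := ?_
      mollUpper := hmollU
      mollLower := hmollL
      mollGrad := ?_ }
  · filter_upwards [hupper] with X hX
    exact hX.trans (mul_le_mul_of_nonneg_right hC1 (hA0 X))
  · filter_upwards [moll_tendsto hloc hδ0] with X hX
    exact ge_of_tendsto' (hX.const_mul C) fun n =>
      hmollL _ (by positivity) (div_le_self hδ0.le (by simp)) X
  intro t ht htd i k
  filter_upwards [hk5 δ hδ0.le hδ1] with X hX
  have hcs : ∀ s, 0 < s → HasCompactSupport (pd i k (rho s)) := fun s hs =>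
    ((hasCompactSupport_rho hs).fderiv ℝ).comp_left (g := fun L : C2 →L[ℝ] ℝ => L (dir i k)) rfl
  have hdz : ∀ s : ℝ, 1 < s → deriv prof s = 0 := fun s hs => by
    have : prof =ᶠ[𝓝 s] fun _ => 0 := by
      filter_upwards [lt_mem_nhds hs] with y hy using prof_zero hy.le
    rw [this.deriv_eq]; simp
  have hb := scale_bound h (Φ := fun s => pd i k (pot s)) (Ψ := fun s => pd i k (rho s)) (q := 5)
    hP0.le (by norm_num) (fun s _ => pd_contDiff (contDiff_pot s) i k) (fun s hs W hW => ?_)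
    (fun s hs W => ?_) (fun s hs W => hasDerivAt_pd_rho hs i k W)
    (continuous_lap_pd_pot_uncurry i k) ?_
    (fun s hs X => integrable_shift_mul (pd_contDiff (contDiff_rho s) i k).continuous (hcs s hs)
      hloc X) ht htd X
  rotate_left
  · rw [pd_pot]
    dsimp only
    rw [prof_zero ((one_le_div (by positivity)).2 hW), mul_zero, neg_zero]
  · rw [pd_pot]
    dsimp only
    rw [abs_neg, mul_assoc, abs_mul, abs_of_nonneg (by positivity : (0 : ℝ) ≤ (s ^ 7)⁻¹)]
    refine (mul_le_mul_of_nonneg_left (abs_mul_nsq_zero (φ := prof) (L := P) (fun r hr => ?_)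
      (fun r hr => prof_zero hr.le) hs W i k) (by positivity)).trans_eq ?_
    · rw [abs_of_nonneg (prof_nonneg r)]; exact (hP r hr).1
    · field_simp
  · have hz : Continuous fun p : ℝ × C2 => p.2 i k := by fun_prop
    refine ContinuousOn.congr ?_ fun p _ => congrFun (pd_pot p.1 i k) p.2
    exact ((((continuous_fst.pow 7).continuousOn).inv₀ fun p hp => pow_ne_zero 7 (ne_of_gt hp.1)).mul
      hz.continuousOn).mul (continuous_prof.comp_continuousOn
        ((continuous_nsq.comp continuous_snd).continuousOn.div (by fun_prop)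
          fun p hp => pow_ne_zero 2 (ne_of_gt hp.1))) |>.neg
  rw [← pd_moll hδ0 hloc, ← pd_moll ht hloc] at hb
  have h1 := hb.trans (mul_le_mul' le_rfl (kern_sol_bound hδ0.le hX (by positivity) (hstep X) habs))
  have hsing := sing_ge_one R X
  have hAX := hA0 X
  rw [← ENNReal.ofReal_mul (by positivity), ← ENNReal.ofReal_mul (by have := bigK_pos Z e; positivity)] at h1
  have h2 := (ENNReal.ofReal_le_ofReal_iff (by have := bigK_pos Z e; positivity)).1 h1
  have h3 : |pd i k (moll δ u) X| ≤ 2 * P' / δ * A X := by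
    rw [pd_moll hδ0 hloc]
    refine (mass_bound_of_le h hu hδ0.le (f := pd i k (rho δ))
      (L := (δ ^ 8)⁻¹ * 2 * (δ * P')) (fun W => ?_) (fun W hW => ?_) X).trans_eq ?_
    · rw [pd_rho]
      dsimp only
      rw [show (δ ^ 8)⁻¹ * (2 * W i k) * deriv prof (nsq W / δ ^ 2)
        = (δ ^ 8)⁻¹ * 2 * (W i k * deriv prof (nsq W / δ ^ 2)) by ring, abs_mul,
        abs_of_nonneg (by positivity : (0 : ℝ) ≤ (δ ^ 8)⁻¹ * 2)]
      exact mul_le_mul_of_nonneg_left (abs_mul_nsq_zero hP' hdz hδ0 W i k) (by positivity)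
    · rw [pd_rho]
      dsimp only
      rcases (show (1 : ℝ) ≤ nsq W / δ ^ 2 from (one_le_div (by positivity)).2 hW).eq_or_lt with hh | hh
      · rw [← hh]
        have h0 : Tendsto (deriv prof) (𝓝[>] 1) (𝓝 (deriv prof 1)) :=
          ((contDiff_deriv_prof (n := 0)).continuous.tendsto 1).mono_left nhdsWithin_le_nhds
        have h0' : Tendsto (deriv prof) (𝓝[>] 1) (𝓝 0) :=
          tendsto_const_nhds.congr' (eventually_nhdsWithin_of_forall fun s hs => (hdz s hs).symm)
        rw [tendsto_nhds_unique h0 h0', mul_zero]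
      · rw [hdz _ hh, mul_zero]
    · simp only [hA, avg]
      field_simp
  calc |pd i k (moll t u) X|
      ≤ |pd i k (moll δ u) X| + |pd i k (moll δ u) X - pd i k (moll t u) X| := by
        linarith [abs_sub_abs_le_abs_sub (pd i k (moll t u) X) (pd i k (moll δ u) X),
          abs_sub_comm (pd i k (moll t u) X) (pd i k (moll δ u) X)]
    _ ≤ 2 * P' / δ * A X * sing R X + κ * (2 * P * D) * C₅ * A X * sing R X := by
        refine add_le_add (h3.trans (le_mul_of_one_le_right (by positivity) hsing)) (h2.trans_eq ?_)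
        simp only [hκ]; ring
    _ = (2 * P' / δ + κ * (2 * P * D) * C₅) * A X * sing R X := by ring
    _ ≤ C * A X * sing R X := by gcongr

end Vale.Agent.P363.Two
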