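import Vale.Agent.P363.Two.Harnack.Doubling

/-!
Two electrons, Harnack block: the scale identity for mollifications and their limit.
-/

noncomputable section

open MeasureTheory Set Real Function Filter Topology
open scoped ENNReal

namespace Vale.Agent.P363.Two

lemma pd_contDiff {f : C2 → ℝ} (hf : ContDiff ℝ (⊤ : ℕ∞) f) (i : Fin 2) (k : Fin 3) :
    ContDiff ℝ (⊤ : ℕ∞) (pd i k f) :=
  (hf.fderiv_right (m := (⊤ : ℕ∞)) (by simp)).clm_apply contDiff_const

lemma pd_comm {f : C2 → ℝ} (hf : ContDiff ℝ (⊤ : ℕ∞) f) (i j : Fin 2) (k l : Fin 3) (X : C2) :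
    pd i k (pd j l f) X = pd j l (pd i k f) X := by
  have hd : DifferentiableAt ℝ (fderiv ℝ f) X :=
    (hf.fderiv_right (m := (⊤ : ℕ∞)) (by simp)).differentiable (by simp) X
  have e : ∀ (j : Fin 2) (l : Fin 3) (v : C2),
      fderiv ℝ (pd j l f) X v = fderiv ℝ (fderiv ℝ f) X v (dir j l) := fun j l v => by
    rw [show pd j l f = fun Y => fderiv ℝ f Y (dir j l) from rfl,
      fderiv_clm_apply hd (differentiableAt_const _)]
    simp
  rw [pd, pd, e, e]
  exact hf.contDiffAt.isSymmSndFDerivAt (by simp; exact WithTop.coe_le_coe.2 le_top) _ _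

lemma lap_pd {f : C2 → ℝ} (hf : ContDiff ℝ (⊤ : ℕ∞) f) (i : Fin 2) (k : Fin 3) (X : C2) :
    lap (pd i k f) X = pd i k (lap f) X := by
  have hs : ∀ j l, DifferentiableAt ℝ (pd j l (pd j l f)) X := fun j l =>
    (pd_contDiff (pd_contDiff hf j l) j l).differentiable (by simp) X
  rw [pd, show lap f = fun Y => ∑ j, ∑ l, pd j l (pd j l f) Y from rfl,
    fderiv_fun_sum fun j _ => DifferentiableAt.fun_sum fun l _ => hs j l,
    sum_apply]
  simp only [lap]
  refine Finset.sum_congr rfl fun j _ => ?_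
  rw [fderiv_fun_sum fun l _ => hs j l, sum_apply]
  refine Finset.sum_congr rfl fun l _ => ?_
  have e : pd j l (pd i k f) = pd i k (pd j l f) := funext fun Y => pd_comm hf j i l k Y
  rw [e, pd_comm (pd_contDiff hf j l) j i l k]
  rfl

lemma pd_comp_sub {f : C2 → ℝ} (hf : Differentiable ℝ f) (X : C2) (i : Fin 2) (k : Fin 3) (Y : C2) :
    pd i k (fun Y => f (X - Y)) Y = -pd i k f (X - Y) := by
  have h := (hf (X - Y)).hasFDerivAt.comp Y ((hasFDerivAt_id Y).const_sub X)
  rw [pd, show (fun Y => f (X - Y)) = f ∘ HSub.hSub X from rfl, h.fderiv]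
  simp [pd]

lemma lap_comp_sub {f : C2 → ℝ} (hf : ContDiff ℝ (⊤ : ℕ∞) f) (X Y : C2) :
    lap (fun Y => f (X - Y)) Y = lap f (X - Y) := by
  refine Finset.sum_congr rfl fun i _ => Finset.sum_congr rfl fun k _ => ?_
  have e : pd i k (fun Y => f (X - Y)) = fun Y => -pd i k f (X - Y) :=
    funext fun Y => pd_comp_sub (hf.differentiable (by simp)) X i k Y
  rw [e]
  have h2 : pd i k (fun Y => -pd i k f (X - Y)) Y = -pd i k (fun Y => pd i k f (X - Y)) Y := by
    simp [pd, fderiv_fun_neg]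
  rw [h2, pd_comp_sub ((pd_contDiff hf i k).differentiable (by simp)), neg_neg]

lemma pd_comp_nsq {φ : ℝ → ℝ} (hφ : ContDiff ℝ 1 φ) (t : ℝ) (i : Fin 2) (k : Fin 3) (Z : C2) :
    pd i k (fun Z => φ (nsq Z / t ^ 2)) Z = deriv φ (nsq Z / t ^ 2) * (2 * Z i k / t ^ 2) := by
  refine pd_eq ((hφ.comp (contDiff_nsq.div_const _)).differentiable one_ne_zero Z) ?_
  have h2 : HasDerivAt (fun τ : ℝ => (nsq Z + 2 * τ * Z i k + τ ^ 2) / t ^ 2)
      (2 * Z i k / t ^ 2) 0 :=
    ((((hasDerivAt_id' (0 : ℝ)).const_mul 2).mul_const (Z i k)).const_add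
      (nsq Z)).fun_add (hasDerivAt_pow 2 (0 : ℝ)) |>.div_const _ |>.congr_deriv (by simp)
  have h := (((hφ.differentiable one_ne_zero) _).hasDerivAt).comp (0 : ℝ) h2
  refine (h.congr_of_eventuallyEq (Eventually.of_forall fun τ => ?_)).congr_deriv (by simp)
  simp [nsq_line]

lemma contDiff_deriv_prof {n : ℕ∞} : ContDiff ℝ n (deriv prof) := by
  have h : ContDiff ℝ ((⊤ : ℕ∞) + 1) prof := contDiff_prof
  exact ((contDiff_succ_iff_deriv.1 h).2.2).of_le (WithTop.coe_le_coe.2 le_top)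

lemma pd_rho (t : ℝ) (i : Fin 2) (k : Fin 3) :
    pd i k (rho t) = fun Z => (t ^ 8)⁻¹ * (2 * Z i k) * deriv prof (nsq Z / t ^ 2) := by
  funext Z
  have hd : DifferentiableAt ℝ (fun Z => prof (nsq Z / t ^ 2)) Z :=
    ((contDiff_prof (n := 1)).comp (contDiff_nsq.div_const _)).differentiable one_ne_zero Z
  have h := pd_comp_nsq (contDiff_prof (n := 1)) t i k Z
  unfold pd at h ⊢
  rw [show rho t = fun Z => (t ^ 6)⁻¹ * prof (nsq Z / t ^ 2) from rfl, fderiv_const_mul hd,
    smul_apply, h, smul_eq_mul]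
  ring

lemma pd_pot (t : ℝ) (i : Fin 2) (k : Fin 3) :
    pd i k (pot t) = fun Z => -((t ^ 7)⁻¹ * Z i k * prof (nsq Z / t ^ 2)) := by
  funext Z
  have hd : DifferentiableAt ℝ (fun Z => gProf (nsq Z / t ^ 2)) Z :=
    ((contDiff_gProf (n := 1)).comp (contDiff_nsq.div_const _)).differentiable one_ne_zero Z
  have h := pd_comp_nsq (contDiff_gProf (n := 1)) t i k Z
  unfold pd at h ⊢
  rw [show pot t = fun Z => (t ^ 5)⁻¹ * gProf (nsq Z / t ^ 2) from rfl, fderiv_const_mul hd,
    smul_apply, h, deriv_gProf, smul_eq_mul]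
  ring

lemma lap_pot (t : ℝ) : lap (pot t) = fun Z => -((t ^ 7)⁻¹ *
    (6 * prof (nsq Z / t ^ 2) + 2 * (nsq Z / t ^ 2) * deriv prof (nsq Z / t ^ 2))) := by
  funext Z
  have key : ∀ i k, pd i k (pd i k (pot t)) Z = -((t ^ 7)⁻¹ * (prof (nsq Z / t ^ 2)
      + deriv prof (nsq Z / t ^ 2) * (2 / t ^ 2) * Z i k ^ 2)) := by
    intro i k
    refine pd_eq ((pd_contDiff (contDiff_pot t) i k).differentiable (by simp) Z) ?_
    have h2 : HasDerivAt (fun τ : ℝ => (nsq Z + 2 * τ * Z i k + τ ^ 2) / t ^ 2)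
        (2 * Z i k / t ^ 2) 0 :=
      ((((hasDerivAt_id' (0 : ℝ)).const_mul 2).mul_const (Z i k)).const_add
        (nsq Z)).fun_add (hasDerivAt_pow 2 (0 : ℝ)) |>.div_const _ |>.congr_deriv (by simp)
    have h3 := (((contDiff_prof (n := 1)).differentiable one_ne_zero _).hasDerivAt).comp (0 : ℝ) h2
    refine (((((hasDerivAt_id' (0 : ℝ)).const_add (Z i k)).const_mul ((t ^ 7)⁻¹)).fun_mul
      h3).fun_neg.congr_of_eventuallyEq (Eventually.of_forall fun τ => ?_)).congr_deriv ?_
    · rw [pd_pot]; simp only [comp_apply, nsq_line]; simp [dir]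
    · simp only [comp_apply, mul_zero, zero_mul, add_zero, ne_eq, OfNat.ofNat_ne_zero,
        not_false_eq_true, zero_pow]
      ring
  simp only [lap, key, mul_add, neg_add, Finset.sum_add_distrib, Finset.sum_neg_distrib,
    ← Finset.mul_sum, sum_sq]
  simp
  ring

lemma hasDerivAt_scaled_prof {t : ℝ} (ht : 0 < t) (n : ℕ) {φ : ℝ → ℝ} (hφ : ContDiff ℝ 1 φ)
    (q : ℝ) : HasDerivAt (fun s => (s ^ n)⁻¹ * φ (q / s ^ 2))
      (-(n * (t ^ (n + 1))⁻¹ * φ (q / t ^ 2))
        - (t ^ (n + 1))⁻¹ * (2 * (q / t ^ 2)) * deriv φ (q / t ^ 2)) t := by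
  have h1 : HasDerivAt (fun s : ℝ => (s ^ n)⁻¹) (-((n : ℝ) * t ^ (n - 1)) / (t ^ n) ^ 2) t :=
    (hasDerivAt_pow n t).fun_inv (pow_ne_zero _ ht.ne')
  have h2 : HasDerivAt (fun s : ℝ => q / s ^ 2) (-(2 * (q / t ^ 2)) / t) t := by
    refine ((hasDerivAt_const t q).fun_div (hasDerivAt_pow 2 t) (pow_ne_zero 2 ht.ne')).congr_deriv ?_
    field_simp
    ring
  refine (h1.fun_mul (((hφ.differentiable one_ne_zero) _).hasDerivAt.comp t h2)).congr_deriv ?_
  cases n with
  | zero => simp [comp_apply]; field_simp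
  | succ m =>
    simp only [comp_apply, Nat.add_sub_cancel, pow_succ]
    push_cast
    field_simp
    ring

lemma hasDerivAt_rho {t : ℝ} (ht : 0 < t) (Z : C2) :
    HasDerivAt (fun s => rho s Z) (lap (pot t) Z) t := by
  refine (hasDerivAt_scaled_prof ht 6 (contDiff_prof (n := 1)) (nsq Z)).congr_deriv ?_
  rw [lap_pot]; push_cast; ring

lemma hasDerivAt_pd_rho {t : ℝ} (ht : 0 < t) (i : Fin 2) (k : Fin 3) (Z : C2) :
    HasDerivAt (fun s => pd i k (rho s) Z) (lap (pd i k (pot t)) Z) t := by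
  have h := (hasDerivAt_scaled_prof ht 8 (contDiff_deriv_prof (n := 1)) (nsq Z)).const_mul (2 * Z i k)
  simp only [pd_rho]
  refine (h.congr_of_eventuallyEq (Eventually.of_forall fun s => by ring)).congr_deriv ?_
  rw [lap_pd (contDiff_pot t)]
  refine (pd_eq ((?_ : ContDiff ℝ 1 (lap (pot t))).differentiable one_ne_zero Z) ?_).symm
  · rw [lap_pot]
    have hn : ContDiff ℝ 1 fun Z : C2 => nsq Z / t ^ 2 := contDiff_nsq.div_const _
    exact (contDiff_const.mul ((contDiff_const.mul ((contDiff_prof (n := 1)).comp hn)).add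
      ((contDiff_const.mul hn).mul ((contDiff_deriv_prof (n := 1)).comp hn)))).neg
  have h2 : HasDerivAt (fun τ : ℝ => (nsq Z + 2 * τ * Z i k + τ ^ 2) / t ^ 2)
      (2 * Z i k / t ^ 2) 0 :=
    ((((hasDerivAt_id' (0 : ℝ)).const_mul 2).mul_const (Z i k)).const_add
      (nsq Z)).fun_add (hasDerivAt_pow 2 (0 : ℝ)) |>.div_const _ |>.congr_deriv (by simp)
  have h3 := (((contDiff_prof (n := 1)).differentiable one_ne_zero _).hasDerivAt).comp (0 : ℝ) h2
  have h4 := (((contDiff_deriv_prof (n := 1)).differentiable one_ne_zero _).hasDerivAt).comp (0 : ℝ) h2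
  refine ((((h3.const_mul 6).fun_add ((h2.const_mul 2).fun_mul h4)).const_mul
    ((t ^ 7)⁻¹)).fun_neg.congr_of_eventuallyEq (Eventually.of_forall fun τ => ?_)).congr_deriv ?_
  · simp [lap_pot, nsq_line]
  · simp only [comp_apply, mul_zero, zero_mul, add_zero, ne_eq, OfNat.ofNat_ne_zero,
      not_false_eq_true, zero_pow]
    push_cast
    ring

lemma continuous_lap_pot_uncurry : ContinuousOn (uncurry fun s Z => lap (pot s) Z)
    (Ioi (0 : ℝ) ×ˢ (univ : Set C2)) := by
  have hσ : ContinuousOn (fun p : ℝ × C2 => nsq p.2 / p.1 ^ 2) (Ioi (0 : ℝ) ×ˢ univ) :=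
    (continuous_nsq.comp continuous_snd).continuousOn.div (by fun_prop)
      fun p hp => pow_ne_zero 2 (ne_of_gt hp.1)
  refine ContinuousOn.congr ?_ fun p _ => congrFun (lap_pot p.1) p.2
  refine ((((continuous_fst.pow 7).continuousOn).inv₀ fun p hp => pow_ne_zero 7 (ne_of_gt hp.1)).mul
    ((continuousOn_const.mul (continuous_prof.comp_continuousOn hσ)).add
      ((continuousOn_const.mul hσ).mul
        ((contDiff_deriv_prof (n := 0)).continuous.comp_continuousOn hσ)))).neg

lemma continuous_lap_pd_pot_uncurry (i : Fin 2) (k : Fin 3) :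
    ContinuousOn (uncurry fun s Z => lap (pd i k (pot s)) Z) (Ioi (0 : ℝ) ×ˢ (univ : Set C2)) := by
  have hσ : ContinuousOn (fun p : ℝ × C2 => nsq p.2 / p.1 ^ 2) (Ioi (0 : ℝ) ×ˢ univ) :=
    (continuous_nsq.comp continuous_snd).continuousOn.div (by fun_prop)
      fun p hp => pow_ne_zero 2 (ne_of_gt hp.1)
  have hdd : Continuous (deriv (deriv prof)) :=
    ((contDiff_deriv_prof (n := 1)).continuous_deriv le_rfl)
  have hz : Continuous fun p : ℝ × C2 => p.2 i k := by fun_prop
  refine ContinuousOn.congr (f := fun p : ℝ × C2 =>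
    (2 * p.2 i k) * (-(8 * (p.1 ^ 9)⁻¹ * deriv prof (nsq p.2 / p.1 ^ 2))
      - (p.1 ^ 9)⁻¹ * (2 * (nsq p.2 / p.1 ^ 2)) * deriv (deriv prof) (nsq p.2 / p.1 ^ 2))) ?_ ?_
  · have h9 : ContinuousOn (fun p : ℝ × C2 => (p.1 ^ 9)⁻¹) (Ioi (0 : ℝ) ×ˢ univ) :=
      ((continuous_fst.pow 9).continuousOn).inv₀ fun p hp => pow_ne_zero 9 (ne_of_gt hp.1)
    exact (continuous_const.mul hz).continuousOn.mul
      ((((continuousOn_const.mul h9).mul ((contDiff_deriv_prof (n := 0)).continuous.comp_continuousOn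
        hσ))).neg.sub ((h9.mul (continuousOn_const.mul hσ)).mul (hdd.comp_continuousOn hσ)))
  · intro p hp
    refine (hasDerivAt_pd_rho hp.1 i k p.2).unique ?_
    have h := (hasDerivAt_scaled_prof hp.1 8 (contDiff_deriv_prof (n := 1)) (nsq p.2)).const_mul
      (2 * p.2 i k)
    simp only [pd_rho]
    exact (h.congr_of_eventuallyEq (Eventually.of_forall fun s => by ring)).congr_deriv
      (by push_cast; ring)

variable {M : ℕ} {Z : Fin M → ℕ} {R : Fin M → R3} {e : ℝ} {u : C2 → ℝ}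

/-- The scale identity. -/
theorem scale_identity (h : IsSol Z R e u) {Φ Ψ : ℝ → C2 → ℝ}
    (hΦ : ∀ s, 0 < s → ContDiff ℝ (⊤ : ℕ∞) (Φ s))
    (hzero : ∀ s, 0 < s → ∀ W, s ^ 2 ≤ nsq W → Φ s W = 0)
    (hΨ : ∀ s, 0 < s → ∀ W, HasDerivAt (fun s => Ψ s W) (lap (Φ s) W) s)
    (hc : ContinuousOn (uncurry fun s W => lap (Φ s) W) (Ioi (0 : ℝ) ×ˢ (univ : Set C2)))
    (hΨi : ∀ s, 0 < s → ∀ X, Integrable fun Y => Ψ s (X - Y) * u Y)
    {t d : ℝ} (ht : 0 < t) (htd : t ≤ d) (X : C2) :
    (∫ Y, Ψ d (X - Y) * u Y) - ∫ Y, Ψ t (X - Y) * u Y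
      = ∫ s in Ioc t d, ∫ Y, 2 * (pot2 Z R Y - e) * u Y * Φ s (X - Y) := by
  set I := Ioc t d with hI
  have hsub : Icc t d ×ˢ (univ : Set C2) ⊆ Ioi (0 : ℝ) ×ˢ univ :=
    prod_mono (fun s hs => ht.trans_le hs.1) (Subset.refl _)
  have hd0 : 0 < d := ht.trans_le htd
  have hmz : ∀ s ∈ Icc t d, ∀ Y, Y ∉ Metric.closedBall X d → lap (Φ s) (X - Y) = 0 := by
    intro s hs Y hY
    have hs0 : 0 < s := ht.trans_le hs.1
    have hopen : ∀ᶠ W in 𝓝 (X - Y), Φ s W = 0 := by
      rw [Metric.mem_closedBall, dist_eq_norm, ← norm_neg, neg_sub, not_le] at hY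
      filter_upwards [(continuous_norm.continuousAt (x := X - Y)).eventually (lt_mem_nhds hY)]
        with W hW
      exact hzero s hs0 W ((pow_le_pow_left₀ hs0.le (hs.2.trans hW.le) 2).trans (norm_sq_le_nsq W))
    have h1 : ∀ i k, pd i k (Φ s) =ᶠ[𝓝 (X - Y)] fun _ => 0 := fun i k => by
      filter_upwards [hopen.eventually_nhds] with W hW
      rw [pd, Filter.EventuallyEq.fderiv_eq (show Φ s =ᶠ[𝓝 W] fun _ => 0 from hW)]
      simp
    refine Finset.sum_eq_zero fun i _ => Finset.sum_eq_zero fun k _ => ?_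
    rw [pd, (h1 i k).fderiv_eq]
    simp
  obtain ⟨L, hL⟩ := (isCompact_Icc.prod (isCompact_closedBall (0 : C2) d)).exists_bound_of_continuousOn
    (hc.mono ((prod_mono (Subset.refl (Icc t d)) (subset_univ _)).trans hsub))
  have hum : AEStronglyMeasurable u := h.memLp.aestronglyMeasurable
  set F : ℝ → C2 → ℝ := fun s Y => lap (Φ s) (X - Y) * u Y with hF
  have hFm : AEStronglyMeasurable (uncurry F) ((volume.restrict I).prod volume) := by
    refine AEStronglyMeasurable.mul ?_ hum.comp_snd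
    have hcX : ContinuousOn (fun p : ℝ × C2 => lap (Φ p.1) (X - p.2)) (I ×ˢ (univ : Set C2)) :=
      hc.comp (continuous_fst.prodMk (continuous_const.sub continuous_snd)).continuousOn
        (fun p hp => ⟨ht.trans hp.1.1, mem_univ _⟩)
    have := hcX.aestronglyMeasurable (μ := (volume : Measure ℝ).prod volume)
      (measurableSet_Ioc.prod MeasurableSet.univ)
    rwa [← Measure.prod_restrict, Measure.restrict_univ] at this
  have hFi : Integrable (uncurry F) ((volume.restrict I).prod volume) := by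
    have : IsFiniteMeasure (volume.restrict I) := ⟨by simp [hI]⟩
    have hu1 : Integrable ((Metric.closedBall X d).indicator fun Y => L * |u Y|) := by
      rw [integrable_indicator_iff measurableSet_closedBall]
      exact ((h.locallyIntegrable.integrableOn_isCompact (isCompact_closedBall X d)).abs).const_mul L
    refine ((integrable_const (1 : ℝ) (μ := volume.restrict I)).mul_prod hu1).mono' hFm ?_
    rw [← Measure.restrict_univ (μ := (volume : Measure C2)), Measure.prod_restrict]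
    refine ae_restrict_of_forall_mem (measurableSet_Ioc.prod MeasurableSet.univ) fun p hp => ?_
    have hp1 : p.1 ∈ Icc t d := Ioc_subset_Icc_self hp.1
    simp only [uncurry, hF, norm_mul, Real.norm_eq_abs, one_mul]
    by_cases hY : p.2 ∈ Metric.closedBall X d
    · rw [indicator_of_mem hY]
      refine mul_le_mul_of_nonneg_right ?_ (abs_nonneg _)
      refine hL (p.1, X - p.2) ⟨hp1, ?_⟩
      rw [Metric.mem_closedBall, dist_zero_right, ← dist_eq_norm, dist_comm]
      exact Metric.mem_closedBall.1 hY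
    · rw [indicator_of_notMem hY, hmz p.1 hp1 p.2 hY, abs_zero, zero_mul]
  have hftc : ∀ Y, Ψ d (X - Y) * u Y - Ψ t (X - Y) * u Y = ∫ s in I, F s Y := by
    intro Y
    simp only [hF, integral_mul_const]
    rw [← sub_mul, hI, ← intervalIntegral.integral_of_le htd]
    congr 1
    have hcY : ContinuousOn (fun s => lap (Φ s) (X - Y)) (uIcc t d) := by
      rw [uIcc_of_le htd]
      have h1 := hc.comp (f := fun s : ℝ => (s, X - Y)) (s := Icc t d)
        (continuous_id.prodMk continuous_const).continuousOn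
        (fun s hs => ⟨ht.trans_le hs.1, mem_univ _⟩)
      simpa only [Function.comp_def, Function.uncurry_apply_pair] using h1
    exact (intervalIntegral.integral_eq_sub_of_hasDerivAt (f := fun s => Ψ s (X - Y))
      (fun s hs => hΨ s (lt_of_lt_of_le ht (uIcc_of_le htd ▸ hs).1) (X - Y))
      hcY.intervalIntegrable).symm
  rw [← integral_sub (hΨi d hd0 X) (hΨi t ht X)]
  simp only [hftc]
  rw [← integral_integral_swap hFi]
  refine setIntegral_congr_fun measurableSet_Ioc fun s hs => ?_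
  have hs0 : 0 < s := ht.trans hs.1
  have hη : IsTest fun Y => Φ s (X - Y) := by
    refine ⟨(hΦ s hs0).comp (contDiff_const.sub contDiff_id),
      HasCompactSupport.intro (isCompact_closedBall X s) fun Y hY => hzero s hs0 _ ?_⟩
    rw [Metric.mem_closedBall, dist_eq_norm, ← norm_neg, neg_sub, not_le] at hY
    exact (pow_le_pow_left₀ hs0.le hY.le 2).trans (norm_sq_le_nsq _)
  refine Eq.trans ?_ (h.eqn _ hη)
  exact integral_congr_ae (ae_of_all _ fun Y => by
    simp only [hF, lap_comp_sub (hΦ s hs0)]; ring)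

/-- The time integral of a self-similar kernel. -/
theorem kern_time {Φ : ℝ → C2 → ℝ} {q : ℕ} {B : ℝ} (hB : 0 ≤ B) (hq : 2 ≤ q)
    (hzero : ∀ s, 0 < s → ∀ W, s ^ 2 ≤ nsq W → Φ s W = 0)
    (hbd : ∀ s, 0 < s → ∀ W, |Φ s W| ≤ B * (s ^ (q + 1))⁻¹)
    {t d : ℝ} (ht : 0 < t) {W : C2} (hW0 : W ≠ 0) :
    ∫⁻ s in Ioc t d, ENNReal.ofReal |Φ s W| ≤ ENNReal.ofReal B * kern q d W := by
  set I := Ioc t d with hI
  by_cases hWd : nsq W < d ^ 2
  · have hr : 0 < √(nsq W) := by
      refine sqrt_pos.2 (lt_of_lt_of_le (pow_pos (norm_pos_iff.2 ?_) 2) (norm_sq_le_nsq W))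
      exact hW0
    rw [kern, indicator_of_mem (show W ∈ {Z : C2 | nsq Z < d ^ 2} from hWd),
      ← ENNReal.ofReal_mul hB]
    have hq2 : -((q : ℝ) + 1) < -1 := by
      have : (2 : ℝ) ≤ q := by exact_mod_cast hq
      linarith
    have hint := (integrableOn_Ioi_rpow_of_lt hq2 hr).const_mul B
    have hnn : ∀ᵐ s ∂volume.restrict (Ioi √(nsq W)), 0 ≤ B * s ^ (-((q : ℝ) + 1)) :=
      ae_restrict_of_forall_mem measurableSet_Ioi fun s hs =>
        mul_nonneg hB (rpow_nonneg (hr.trans hs).le _)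
    calc ∫⁻ s in I, ENNReal.ofReal |Φ s W|
        ≤ ∫⁻ s in I, (Ioi √(nsq W)).indicator
            (fun s => ENNReal.ofReal (B * s ^ (-((q : ℝ) + 1)))) s := by
          refine setLIntegral_mono' measurableSet_Ioc fun s hs => ?_
          have hs0 : 0 < s := ht.trans hs.1
          by_cases hsW : s ∈ Ioi √(nsq W)
          · rw [indicator_of_mem hsW]
            refine ENNReal.ofReal_le_ofReal ((hbd s hs0 W).trans_eq ?_)
            rw [rpow_neg hs0.le, show ((q : ℝ) + 1) = ((q + 1 : ℕ) : ℝ) by push_cast; ring,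
              rpow_natCast]
          · rw [hzero s hs0 W ((le_sqrt hs0.le (nsq_nonneg W)).1 (not_lt.1 hsW)), abs_zero,
              ENNReal.ofReal_zero]
            exact bot_le
      _ ≤ ∫⁻ s in Ioi √(nsq W), ENNReal.ofReal (B * s ^ (-((q : ℝ) + 1))) :=
          (setLIntegral_le_lintegral I _).trans_eq (lintegral_indicator measurableSet_Ioi _)
      _ = ENNReal.ofReal (B * (-√(nsq W) ^ (-((q : ℝ) + 1) + 1) / (-((q : ℝ) + 1) + 1))) := by
          rw [← ofReal_integral_eq_lintegral_ofReal hint hnn, integral_const_mul,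
            integral_Ioi_rpow_of_lt hq2 hr]
      _ ≤ _ := by
          refine ENNReal.ofReal_le_ofReal (mul_le_mul_of_nonneg_left ?_ hB)
          rw [sqrt_eq_rpow, ← rpow_mul (nsq_nonneg W),
            show 1 / 2 * (-((q : ℝ) + 1) + 1) = -((q : ℝ) / 2) by ring,
            show -((q : ℝ) + 1) + 1 = -(q : ℝ) by ring, neg_div_neg_eq]
          exact div_le_self (rpow_nonneg (nsq_nonneg W) _) (by exact_mod_cast (le_of_lt hq))
  · rw [kern, indicator_of_notMem (show W ∉ {Z : C2 | nsq Z < d ^ 2} from hWd)]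
    refine le_of_le_of_eq (le_of_eq ?_) (mul_zero _).symm
    refine setLIntegral_eq_zero measurableSet_Ioc fun s hs => ?_
    rw [hzero s (ht.trans hs.1) W ((pow_le_pow_left₀ (ht.trans hs.1).le hs.2 2).trans
      (not_lt.1 hWd))]
    simp

/-- The scale identity, as a bound. -/
theorem scale_bound (h : IsSol Z R e u) {Φ Ψ : ℝ → C2 → ℝ} {q : ℕ} {B : ℝ} (hB : 0 ≤ B)
    (hq : 2 ≤ q) (hΦ : ∀ s, 0 < s → ContDiff ℝ (⊤ : ℕ∞) (Φ s))
    (hzero : ∀ s, 0 < s → ∀ W, s ^ 2 ≤ nsq W → Φ s W = 0)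
    (hbd : ∀ s, 0 < s → ∀ W, |Φ s W| ≤ B * (s ^ (q + 1))⁻¹)
    (hΨ : ∀ s, 0 < s → ∀ W, HasDerivAt (fun s => Ψ s W) (lap (Φ s) W) s)
    (hc : ContinuousOn (uncurry fun s W => lap (Φ s) W) (Ioi (0 : ℝ) ×ˢ (univ : Set C2)))
    (hcΦ : ContinuousOn (uncurry Φ) (Ioi (0 : ℝ) ×ˢ (univ : Set C2)))
    (hΨi : ∀ s, 0 < s → ∀ X, Integrable fun Y => Ψ s (X - Y) * u Y)
    {t d : ℝ} (ht : 0 < t) (htd : t ≤ d) (X : C2) :
    ENNReal.ofReal |(∫ Y, Ψ d (X - Y) * u Y) - ∫ Y, Ψ t (X - Y) * u Y|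
      ≤ ENNReal.ofReal (2 * bigK Z e * B) *
        ∫⁻ Y, kern q d (X - Y) * ENNReal.ofReal (wmaj R Y * |u Y|) := by
  set I := Ioc t d with hI
  have hum : AEStronglyMeasurable u := h.memLp.aestronglyMeasurable
  rw [scale_identity h hΦ hzero hΨ hc hΨi ht htd X, ← Real.enorm_eq_ofReal_abs]
  refine (enorm_integral_le_lintegral_enorm _).trans ?_
  set G : ℝ → C2 → ℝ≥0∞ := fun s Y => ENNReal.ofReal (2 * bigK Z e) *
    ENNReal.ofReal (wmaj R Y * |u Y|) * ENNReal.ofReal |Φ s (X - Y)| with hG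
  have hK := bigK_pos Z e
  refine (lintegral_mono fun s => (enorm_integral_le_lintegral_enorm _).trans
    (lintegral_mono (g := G s) fun Y => ?_)).trans ?_
  · have hw := zero_le_one.trans (one_le_wmaj R Y)
    simp only [hG]
    rw [Real.enorm_eq_ofReal_abs, ← ENNReal.ofReal_mul (by positivity),
      ← ENNReal.ofReal_mul (by positivity)]
    refine ENNReal.ofReal_le_ofReal ?_
    rw [abs_mul, abs_mul, abs_mul, abs_two]
    refine mul_le_mul_of_nonneg_right ?_ (abs_nonneg _)
    calc 2 * |pot2 Z R Y - e| * |u Y| ≤ 2 * (bigK Z e * wmaj R Y) * |u Y| := by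
          gcongr; exact abs_pot2_sub_le Y
      _ = _ := by ring
  have hΦm : AEMeasurable (fun p : ℝ × C2 => ENNReal.ofReal |Φ p.1 (X - p.2)|)
      ((volume.restrict I).prod volume) := by
    have hcX : ContinuousOn (fun p : ℝ × C2 => Φ p.1 (X - p.2)) (I ×ˢ (univ : Set C2)) :=
      hcΦ.comp (continuous_fst.prodMk (continuous_const.sub continuous_snd)).continuousOn
        (fun p hp => ⟨ht.trans hp.1.1, mem_univ _⟩)
    have := hcX.aestronglyMeasurable (μ := (volume : Measure ℝ).prod volume)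
      (measurableSet_Ioc.prod MeasurableSet.univ)
    rw [← Measure.prod_restrict, Measure.restrict_univ] at this
    exact this.aemeasurable.norm.ennreal_ofReal
  have hwm : AEMeasurable fun Y => ENNReal.ofReal (wmaj R Y * |u Y|) :=
    (((measurable_wmaj R).aemeasurable.mul hum.aemeasurable.abs)).ennreal_ofReal
  rw [lintegral_lintegral_swap ((hwm.comp_quasiMeasurePreserving
    Measure.quasiMeasurePreserving_snd).const_mul _ |>.mul hΦm)]
  rw [ENNReal.ofReal_mul (by positivity : (0 : ℝ) ≤ 2 * bigK Z e), mul_assoc,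
    ← lintegral_const_mul' _ _ ENNReal.ofReal_ne_top, ← lintegral_const_mul' _ _ ENNReal.ofReal_ne_top]
  refine lintegral_mono_ae ?_
  filter_upwards [ne_ae 0 (X 0)] with Y hY0
  simp only [hG]
  rw [lintegral_const_mul' _ _ (by finiteness)]
  have key := kern_time hB hq hzero hbd ht (d := d)
    (sub_ne_zero.2 fun hh : X = Y => hY0 (by rw [hh]))
  refine (mul_le_mul' le_rfl key).trans_eq ?_
  ring

/-- Mollifications converge almost everywhere. -/
theorem moll_tendsto {u : C2 → ℝ} (hu : LocallyIntegrable u) {d : ℝ} (hd : 0 < d) :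
    ∀ᵐ X, Tendsto (fun n : ℕ => moll (d / (n + 1)) u X) atTop (𝓝 (u X)) := by
  obtain ⟨P, hP0, hP⟩ := exists_prof_bound
  have hpos : ∀ n : ℕ, 0 < d / (n + 1 : ℝ) := fun n => by positivity
  filter_upwards [IsUnifLocDoublingMeasure.ae_tendsto_average_norm_sub (μ := (volume : Measure C2))
    hu 1] with X hX
  have h1 := hX (fun _ : ℕ => X) (fun n => d / (n + 1)) (tendsto_nhdsWithin_iff.2
    ⟨by simpa [div_eq_mul_inv] using (tendsto_one_div_add_atTop_nhds_zero_nat (𝕜 := ℝ)).const_mul d,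
      Eventually.of_forall fun n => hpos n⟩)
    (Eventually.of_forall fun n => Metric.mem_closedBall_self (by simpa using (hpos n).le))
  set V := (volume (Metric.closedBall (0 : C2) 1)).toReal with hV
  rw [← tendsto_sub_nhds_zero_iff]
  refine squeeze_zero_norm (fun n => ?_) (by simpa using h1.const_mul (P * V))
  set t := d / (n + 1 : ℝ) with ht
  have ht0 : 0 < t := hpos n
  have hball : ∫ Y, |rho t (X - Y) * (u Y - u X)|
      ≤ (t ^ 6)⁻¹ * P * ∫ Y in Metric.closedBall X t, ‖u Y - u X‖ := by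
    rw [← integral_const_mul, ← integral_indicator measurableSet_closedBall]
    refine integral_mono_of_nonneg (ae_of_all _ fun Y => abs_nonneg _) ?_ (ae_of_all _ fun Y => ?_)
    · rw [integrable_indicator_iff measurableSet_closedBall]
      exact (((hu.integrableOn_isCompact (isCompact_closedBall X t)).sub
        (integrableOn_const (isCompact_closedBall X t).measure_lt_top.ne)).norm).const_mul _
    by_cases hY : Y ∈ Metric.closedBall X t
    · dsimp only
      rw [indicator_of_mem hY, abs_mul, abs_of_nonneg (rho_nonneg ht0.le _)]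
      refine mul_le_mul_of_nonneg_right ?_ (abs_nonneg _)
      exact mul_le_mul_of_nonneg_left (hP _ (div_nonneg (nsq_nonneg _) (sq_nonneg t))).1
        (by positivity)
    · dsimp only
      rw [indicator_of_notMem hY, rho_zero ht0, zero_mul, abs_zero]
      rw [Metric.mem_closedBall, dist_eq_norm, ← norm_neg, neg_sub, not_le] at hY
      exact (pow_le_pow_left₀ ht0.le hY.le 2).trans (norm_sq_le_nsq _)
  have hrho : Integrable fun Y => rho t (X - Y) :=
    ((contDiff_rho (n := 0) t).continuous.integrable_of_hasCompactSupport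
      (hasCompactSupport_rho ht0)).comp_sub_left X
  have hrhou : Integrable fun Y => rho t (X - Y) * u Y := by
    have := ((hasCompactSupport_rho ht0).convolutionExists_left (ContinuousLinearMap.lsmul ℝ ℝ)
      (contDiff_rho (n := 0) t).continuous hu X).integrable_swap
    simpa using this
  have e1 : moll t u X - u X = ∫ Y, rho t (X - Y) * (u Y - u X) := by
    simp only [mul_sub]
    rw [integral_sub hrhou (hrho.mul_const _), integral_mul_const,
      integral_sub_left_eq_self (rho t), integral_rho ht0, one_mul, moll]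
  rw [e1, Real.norm_eq_abs]
  refine (abs_integral_le_integral_abs).trans (hball.trans_eq ?_)
  rw [setAverage_eq, smul_eq_mul, measureReal_def,
    Measure.addHaar_closedBall' (volume : Measure C2) X ht0.le, finrank_C2, ENNReal.toReal_mul,
    ENNReal.toReal_ofReal (by positivity), ← hV]
  have : 0 < V := ENNReal.toReal_pos (Metric.measure_closedBall_pos volume _ one_pos).ne'
    (isCompact_closedBall _ _).measure_lt_top.ne
  simp only [Real.norm_eq_abs]
  field_simp

end Vale.Agent.P363.Two
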